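import Vale.Agent.P284.H136.DivS

/-!
# P284 (helper136), MF(II), (D1)(B), part 1: smooth hypersurfaces, thin sets
-/

open scoped Topology ContDiff
open Filter Set Metric Module

noncomputable section

namespace Vale.Agent.P284.H136

section
variable {W : Type} [NormedAddCommGroup W] [NormedSpace ℂ W] {p : ℕ}

theorem Thin.empty : Thin p (∅ : Set W) := Or.inl rfl

theorem Thin.mono {S S' : Set W} (h : Thin p S') (hS : S ⊆ S') : Thin p S := by
  rcases h with h | ⟨h, h'⟩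
  · left
    exact subset_empty_iff.1 (h ▸ hS)
  · exact Or.inr ⟨h, h'.mono hS⟩

theorem Thin.union {S S' : Set W} (h : Thin p S) (h' : Thin p S') : Thin p (S ∪ S') := by
  rcases h with h | ⟨h1, h2⟩
  · rw [h, empty_union]
    exact h'
  · rcases h' with h' | ⟨h1', h2'⟩
    · rw [h', union_empty]
      exact Or.inr ⟨h1, h2⟩
    · exact Or.inr ⟨h1, h2.union h2'⟩

theorem Thin.locally [SecondCountableTopology W] {S : Set W}
    (h : ∀ x ∈ S, ∃ V ∈ 𝓝 x, Thin p (S ∩ V)) : Thin p S := by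
  rcases S.eq_empty_or_nonempty with hS | ⟨x, hx⟩
  · exact Or.inl hS
  · right
    have h1 : 1 ≤ p := by
      obtain ⟨V, hV, h2⟩ := h x hx
      rcases h2 with h2 | ⟨h2, -⟩
      · exfalso
        have : x ∈ S ∩ V := ⟨hx, mem_of_mem_nhds hV⟩
        rw [h2] at this
        exact this
      · exact h2
    refine ⟨h1, ?_⟩
    have h3 : H10.Cov (p - 1) (id '' S) := by
      refine H10.Cov.locally fun y hy => ?_
      obtain ⟨V, hV, h2⟩ := h y hy
      refine ⟨V, hV, ?_⟩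
      rw [image_id]
      rcases h2 with h2 | ⟨-, h2⟩
      · rw [h2]
        exact H10.Cov.empty
      · exact h2
    simpa using h3

/-- a smooth hypersurface: local parametrization -/
theorem exists_par [FiniteDimensional ℂ W] (hW : finrank ℂ W = p + 1) {e : W → ℂ} {x : W}
    (he : AnalyticAt ℂ e x) (he0 : e x = 0) (hde : fderiv ℂ e x ≠ 0) {N : Set W} (hN : N ∈ 𝓝 x) :
    ∃ (K : Submodule ℂ W) (γ : K → W) (r : ℝ) (V : Set W), finrank ℂ K = p ∧ 0 < r ∧ IsOpen V ∧
      x ∈ V ∧ V ⊆ N ∧ (∀ s ∈ ball (0 : K) r, AnalyticAt ℂ γ s ∧ γ s ∈ N ∧ e (γ s) = 0) ∧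
      ∀ z ∈ V, e z = 0 → ∃ s ∈ ball (0 : K) r, γ s = z := by
  have : CompleteSpace W := FiniteDimensional.complete ℂ W
  have hg : ContDiffAt ℂ ω e x := he.contDiffAt
  have hgd : HasStrictFDerivAt e (fderiv ℂ e x) x := hg.hasStrictFDerivAt (by simp)
  have hrange : (fderiv ℂ e x).range = ⊤ :=
    LinearMap.range_eq_top.2 (LinearMap.surjective (f := (fderiv ℂ e x : W →ₗ[ℂ] ℂ))
      (fun hcon => hde (ContinuousLinearMap.coe_injective hcon)))
  have hker : (fderiv ℂ e x).ker.ClosedComplemented :=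
    Submodule.ClosedComplemented.of_finiteDimensional _
  set Φ := HasStrictFDerivAt.implicitFunctionDataOfComplemented e (fderiv ℂ e x) hgd hrange hker
    with hΦ
  set P := Classical.choose hker with hP
  have hfin : Module.finrank ℂ (fderiv ℂ e x).ker = p := by
    have h1 := LinearMap.finrank_range_add_finrank_ker (fderiv ℂ e x : W →ₗ[ℂ] ℂ)
    have h2 : (fderiv ℂ e x : W →ₗ[ℂ] ℂ).range = ⊤ := hrange
    rw [h2, finrank_top, Module.finrank_self, hW] at h1
    have h3 : Module.finrank ℂ (fderiv ℂ e x : W →ₗ[ℂ] ℂ).ker = p := by omega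
    exact h3
  have hγc : ContDiffAt ℂ ω Φ.implicitFunction.uncurry (Φ.prodFun Φ.pt) := by
    refine ImplicitFunctionData.contDiffAt_implicitFunction (φ := Φ) hg ?_ (by simp)
    have h1 : ContDiff ℂ ω fun y : W => P (y - x) :=
      P.contDiff.comp (contDiff_id.sub contDiff_const)
    exact h1.contDiffAt
  have hleft : ∀ᶠ q in 𝓝 (Φ.prodFun Φ.pt), Φ.leftFun (Φ.implicitFunction q.1 q.2) = q.1 :=
    Φ.leftFun_implicitFunction
  have hpt : Φ.prodFun Φ.pt = (0, 0) := by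
    change (e x, P (x - x)) = (0, 0)
    rw [he0, sub_self, map_zero]
  rw [hpt] at hγc hleft
  set γ : (fderiv ℂ e x).ker → W := fun s => Φ.implicitFunction 0 s with hγ
  have hγd : ContDiffAt ℂ ω γ 0 :=
    hγc.comp (0 : (fderiv ℂ e x).ker) (contDiffAt_const.prodMk contDiffAt_id)
  have hγ0 : γ 0 = x := by
    have h1 := Φ.implicitFunction_apply_image.self_of_nhds
    have h2 : Φ.implicitFunction (e x) (P (x - x)) = x := h1
    rw [he0, sub_self, map_zero] at h2
    exact h2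
  have hev1 : ∀ᶠ s in 𝓝 (0 : (fderiv ℂ e x).ker), ContDiffAt ℂ ω γ s :=
    hγd.eventually (by simp)
  have hev2 : ∀ᶠ s in 𝓝 (0 : (fderiv ℂ e x).ker), γ s ∈ N := by
    apply hγd.continuousAt
    rw [hγ0]
    exact hN
  have hev3 : ∀ᶠ s in 𝓝 (0 : (fderiv ℂ e x).ker), e (γ s) = 0 := by
    have h1 : Tendsto (fun s : (fderiv ℂ e x).ker => ((0 : ℂ), s)) (𝓝 0) (𝓝 (0, 0)) := by
      have : Continuous fun s : (fderiv ℂ e x).ker => ((0 : ℂ), s) := by fun_prop
      exact this.tendsto 0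
    exact h1.eventually hleft
  obtain ⟨r, hr, hb⟩ := Metric.eventually_nhds_iff_ball.1 (hev1.and (hev2.and hev3))
  have hback : ∀ᶠ y in 𝓝 x, Φ.implicitFunction (e y) (P (y - x)) = y :=
    Φ.implicitFunction_apply_image
  have hPc : ∀ᶠ y in 𝓝 x, P (y - x) ∈ ball (0 : (fderiv ℂ e x).ker) r := by
    have h1 : ContinuousAt (fun y => P (y - x)) x := by fun_prop
    have h2 : ball (0 : (fderiv ℂ e x).ker) r ∈ 𝓝 (P (x - x)) := by
      rw [sub_self, map_zero]
      exact ball_mem_nhds _ hr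
    exact h1 h2
  obtain ⟨V, hV, hVo, hxV⟩ := _root_.eventually_nhds_iff.1 (hback.and (hPc.and hN))
  refine ⟨(fderiv ℂ e x).ker, γ, r, V, hfin, hr, hVo, hxV, fun z hz => (hV z hz).2.2,
    fun s hs => ⟨(hb s hs).1.analyticAt, (hb s hs).2.1, (hb s hs).2.2⟩, ?_⟩
  intro z hz hz0
  obtain ⟨h1, h2, -⟩ := hV z hz
  rw [hz0] at h1
  exact ⟨_, h2, h1⟩

/-- **Cells** of a smooth hypersurface: the identity theorem and thin subsets. -/
theorem exists_cell [FiniteDimensional ℂ W] (hW : finrank ℂ W = p + 1) {e : W → ℂ} {x : W}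
    (he : AnalyticAt ℂ e x) (he0 : e x = 0) (hde : fderiv ℂ e x ≠ 0) {N : Set W} (hN : N ∈ 𝓝 x) :
    ∃ V ⊆ N, IsOpen V ∧ x ∈ V ∧ ∀ f : W → ℂ, (∀ z ∈ N, AnalyticAt ℂ f z) →
      (∀ z ∈ V, e z = 0 → f z = 0) ∨
      (Thin p {z | z ∈ V ∧ e z = 0 ∧ f z = 0} ∧
        ∀ z ∈ V, e z = 0 → ¬ ∀ᶠ z' in 𝓝 z, e z' = 0 → f z' = 0) := by
  obtain ⟨K, γ, r, V, hK, hr, hVo, hxV, hVN, hγ, hz⟩ := exists_par hW he he0 hde hN
  have : CompleteSpace W := FiniteDimensional.complete ℂ W
  refine ⟨V, hVN, hVo, hxV, fun f hf => ?_⟩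
  have hfγ : AnalyticOnNhd ℂ (fun s => f (γ s)) (ball (0 : K) r) := fun s hs =>
    AnalyticAt.fun_comp (g := f) (f := γ) (hf _ (hγ s hs).2.1) (hγ s hs).1
  by_cases hall : ∃ s ∈ ball (0 : K) r, ∀ᶠ s' in 𝓝 s, f (γ s') = 0
  · left
    obtain ⟨s, hs, h1⟩ := hall
    have h2 := hfγ.eqOn_zero_of_preconnected_of_eventuallyEq_zero
      (convex_ball _ _).isPreconnected hs h1
    intro z hzV hz0
    obtain ⟨s', hs', rfl⟩ := hz z hzV hz0
    exact h2 hs'
  · right
    replace hall : ∀ s ∈ ball (0 : K) r, ¬ ∀ᶠ s' in 𝓝 s, f (γ s') = 0 :=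
      fun s hs h => hall ⟨s, hs, h⟩
    constructor
    · rcases Nat.eq_zero_or_pos p with hp | hp
      · left
        subst hp
        have hsub : Subsingleton K := finrank_zero_iff.1 hK
        rw [eq_empty_iff_forall_notMem]
        rintro z ⟨hzV, hz0, hzf⟩
        obtain ⟨s, hs, rfl⟩ := hz z hzV hz0
        apply hall s hs
        refine Eventually.of_forall fun s' => ?_
        rw [Subsingleton.elim s' s]
        exact hzf
      · right
        refine ⟨hp, ?_⟩
        have h1 : H10.Cov (p - 1) {s | s ∈ ball (0 : K) r ∧ f (γ s) = 0} :=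
          H10.cov_zero (by omega) isOpen_ball
            (fun s hs => (hfγ s hs).differentiableAt.differentiableWithinAt) hall
        refine (h1.image (g := γ) fun s hs => (hγ s hs.1).1.differentiableAt).mono ?_
        rintro z ⟨hzV, hz0, hzf⟩
        obtain ⟨s, hs, rfl⟩ := hz z hzV hz0
        exact ⟨s, ⟨hs, hzf⟩, rfl⟩
    · intro z hzV hz0 hcon
      obtain ⟨s, hs, rfl⟩ := hz z hzV hz0
      apply hall s hs
      have h1 : Tendsto γ (𝓝 s) (𝓝 (γ s)) := (hγ s hs).1.continuousAt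
      filter_upwards [h1.eventually hcon, isOpen_ball.mem_nhds hs] with s' h2 h3
      exact h2 (hγ s' h3).2.2

end

end Vale.Agent.P284.H136
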