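import Vale.Agent.P284.H136.Div1
import Vale.Agent.P281.H511.Gen.Hyp

/-!
# P284 (helper136), MF(II), (D1)(B), part 2: the singular points of an analytic set with empty interior
are a thin set
-/

open scoped Topology ContDiff Manifold
open Filter Set Metric Module

noncomputable section

namespace Vale.Agent.P284.H136

/-- the order of vanishing along a smooth hypersurface (H767) -/
theorem pow_mul_cm {n : ℕ} {z : Fin n → ℂ} {e h : (Fin n → ℂ) → ℂ} (he : AnalyticAt ℂ e z)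
    (he0 : e z = 0)
    (hde : fderiv ℂ e z ≠ 0) (hh : AnalyticAt ℂ h z) (h0 : ¬ ∀ᶠ x in 𝓝 z, h x = 0) :
    ∃ (m : ℕ) (w : (Fin n → ℂ) → ℂ), AnalyticAt ℂ w z ∧ (∀ᶠ x in 𝓝 z, h x = e x ^ m * w x) ∧
      ¬ ∀ᶠ x in 𝓝 z, e x = 0 → w x = 0 := by
  have key : ∀ g : (Fin n → ℂ) → ℂ, P281.J.HolAt (Fin n → ℂ) g z ↔ AnalyticAt ℂ g z := by
    intro g
    rw [P281.J.HolAt, contMDiffAt_iff_contDiffAt]
    exact ⟨fun h1 => ContDiffAt.analyticAt h1, fun h1 => h1.contDiffAt⟩
  have hd : P281.J.dif (Fin n → ℂ) e z ≠ 0 := by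
    rw [P281.J.dif, mfderiv_eq_fderiv]
    exact hde
  obtain ⟨m, w, hw, h1, h2⟩ :=
    P281.H511.Gen.exists_pow_mul (n := n) ((key e).2 he) he0 hd ((key h).2 hh) h0
  exact ⟨m, w, (key w).1 hw, h1, h2⟩

variable {p : ℕ}

/-- near a point where the order of `h` is at most `m` -/
theorem thin_order {T : Set (Fin (p + 1) → ℂ)} {B : Set (Fin (p + 1) → ℂ)} (hB : IsOpen B)
    {ι : Type} {h : ι → (Fin (p + 1) → ℂ) → ℂ} (hh : ∀ i, ∀ s ∈ B, AnalyticAt ℂ (h i) s)
    (hT : ∀ s ∈ B, s ∈ T ↔ ∀ i, h i s = 0) (i₀ : ι) (hne : ∀ s ∈ B, ¬ ∀ᶠ z in 𝓝 s, h i₀ z = 0)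
    (m : ℕ) :
    ∀ x ∈ B, (∃ j ≤ m, ∃ v : Fin j → (Fin (p + 1) → ℂ), iteratedFDeriv ℂ j (h i₀) x v ≠ 0) →
      ∃ V ∈ 𝓝 x, Thin p {z | (z ∈ T ∧ ¬ SmAt T z) ∧ z ∈ V} := by
  induction m with
  | zero =>
    rintro x hx ⟨j, hj, v, hv⟩
    obtain rfl : j = 0 := by omega
    have h1 : h i₀ x ≠ 0 := by
      intro h0
      apply hv
      simpa using h0
    have h2 : ∀ᶠ z in 𝓝 x, h i₀ z ≠ 0 := (hh i₀ x hx).continuousAt.eventually_ne h1
    refine ⟨_, h2.and (hB.mem_nhds hx), Or.inl ?_⟩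
    rw [eq_empty_iff_forall_notMem]
    rintro z ⟨⟨hzT, -⟩, hz0, hzB⟩
    exact hz0 ((hT z hzB).1 hzT i₀)
  | succ m ih =>
    rintro x hx ⟨j, hj, v, hv⟩
    by_cases hlow : ∃ j ≤ m, ∃ v : Fin j → (Fin (p + 1) → ℂ), iteratedFDeriv ℂ j (h i₀) x v ≠ 0
    · exact ih x hx hlow
    · have hjm : j = m + 1 := by
        by_contra hcon
        exact hlow ⟨j, by omega, v, hv⟩
      subst hjm
      set u : (Fin (p + 1) → ℂ) → ℂ := fun z => iteratedFDeriv ℂ m (h i₀) z (Fin.tail v) with hu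
      have hua : ∀ s ∈ B, AnalyticAt ℂ u s := by
        intro s hs
        have h1 : AnalyticAt ℂ (iteratedFDeriv ℂ m (h i₀)) s :=
          AnalyticOnNhd.iteratedFDeriv (s := B) (fun z hz => hh i₀ z hz) m s hs
        exact ((ContinuousMultilinearMap.apply ℂ (fun _ : Fin m => (Fin (p + 1) → ℂ)) ℂ
          (Fin.tail v)).analyticAt _).comp h1
      have hu0 : u x = 0 := by
        by_contra h1
        exact hlow ⟨m, le_rfl, _, h1⟩
      have hdu : fderiv ℂ u x ≠ 0 := by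
        intro h1
        apply hv
        rw [iteratedFDeriv_succ_apply_left]
        have h2 : HasFDerivAt (iteratedFDeriv ℂ m (h i₀)) (fderiv ℂ (iteratedFDeriv ℂ m (h i₀)) x) x :=
          (AnalyticOnNhd.iteratedFDeriv (s := B) (fun z hz => hh i₀ z hz) m x hx).differentiableAt.hasFDerivAt
        have h3 : HasFDerivAt u ((ContinuousMultilinearMap.apply ℂ
            (fun _ : Fin m => (Fin (p + 1) → ℂ)) ℂ (Fin.tail v)).comp
            (fderiv ℂ (iteratedFDeriv ℂ m (h i₀)) x)) x :=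
          (ContinuousMultilinearMap.apply ℂ (fun _ : Fin m => (Fin (p + 1) → ℂ)) ℂ
            (Fin.tail v)).hasFDerivAt.comp x h2
        have h4 := congrArg (fun L => L (v 0)) (h3.fderiv.symm.trans h1)
        exact h4
      obtain ⟨k, w, hw, hev, hw0⟩ := pow_mul_cm (hua x hx) hu0 hdu (hh i₀ x hx) (hne x hx)
      -- a good neighbourhood
      obtain ⟨N, hN, hNo, hxN⟩ := _root_.eventually_nhds_iff.1
        (hev.and (hw.eventually_analyticAt.and (Filter.Eventually.and (hB.mem_nhds hx)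
          ((hua x hx).fderiv.continuousAt.eventually_ne hdu))))
      obtain ⟨V, hVN, hVo, hxV, hcell⟩ := exists_cell (p := p) (by simp) (hua x hx) hu0 hdu
        (hNo.mem_nhds hxN)
      refine ⟨V, hVo.mem_nhds hxV, ?_⟩
      have hVB : ∀ z ∈ V, z ∈ B := fun z hz => (hN z (hVN hz)).2.2.1
      -- the three parts
      have hpa : Thin p {z | ((z ∈ T ∧ ¬ SmAt T z) ∧ z ∈ V) ∧ u z ≠ 0} := by
        refine Thin.locally ?_
        rintro z ⟨⟨⟨hzT, hzS⟩, hzV⟩, hzu⟩
        obtain ⟨V', hV', hc⟩ := ih z (hVB z hzV) ⟨m, le_rfl, _, hzu⟩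
        refine ⟨V', hV', hc.mono ?_⟩
        rintro z' ⟨⟨⟨h1, -⟩, -⟩, h2⟩
        exact ⟨h1, h2⟩
      have hpb : Thin p {z | z ∈ V ∧ u z = 0 ∧ w z = 0} := by
        rcases hcell w (fun z hz => (hN z hz).2.1) with h1 | h1
        · exfalso
          apply hw0
          filter_upwards [hVo.mem_nhds hxV] with z hz
          exact h1 z hz
        · exact h1.1
      have hpc : Thin p {z | ((z ∈ T ∧ ¬ SmAt T z) ∧ z ∈ V) ∧ u z = 0 ∧ w z ≠ 0} := by
        by_cases hall : ∀ i, ∀ z ∈ V, u z = 0 → h i z = 0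
        · left
          rw [eq_empty_iff_forall_notMem]
          rintro z ⟨⟨⟨hzT, hzS⟩, hzV⟩, hzu, hzw⟩
          apply hzS
          have hk : k ≠ 0 := by
            rintro rfl
            have h1 := (hN z (hVN hzV)).1
            rw [(hT z (hVB z hzV)).1 hzT i₀, pow_zero, one_mul] at h1
            exact hzw h1.symm
          have h2 : ∀ᶠ z' in 𝓝 z, w z' ≠ 0 :=
            (hN z (hVN hzV)).2.1.continuousAt.eventually_ne hzw
          refine ⟨u, hua z (hVB z hzV), hzu, ?_, ?_⟩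
          · exact (hN z (hVN hzV)).2.2.2
          · filter_upwards [h2, hVo.mem_nhds hzV] with z' h3 h4
            constructor
            · intro h5
              have h6 := (hN z' (hVN h4)).1
              rw [(hT z' (hVB z' h4)).1 h5 i₀] at h6
              rcases mul_eq_zero.1 h6.symm with h7 | h7
              · exact (pow_eq_zero_iff hk).1 h7
              · exact absurd h7 h3
            · intro h5
              exact (hT z' (hVB z' h4)).2 fun i => hall i z' h4 h5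
        · push Not at hall
          obtain ⟨i, z₁, hz₁, hz₁u, hz₁h⟩ := hall
          rcases hcell (h i) (fun z hz => hh i z (hN z hz).2.2.1) with h1 | h1
          · exact absurd (h1 z₁ hz₁ hz₁u) hz₁h
          · refine h1.1.mono ?_
            rintro z ⟨⟨⟨hzT, hzS⟩, hzV⟩, hzu, hzw⟩
            exact ⟨hzV, hzu, (hT z (hVB z hzV)).1 hzT i⟩
      refine ((hpa.union hpb).union hpc).mono ?_
      intro z hz
      by_cases h1 : u z = 0
      · by_cases h2 : w z = 0
        · exact Or.inl (Or.inr ⟨hz.2, h1, h2⟩)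
        · exact Or.inr ⟨hz, h1, h2⟩
      · exact Or.inl (Or.inl ⟨hz, h1⟩)

theorem exists_order {W : Type} [NormedAddCommGroup W] [NormedSpace ℂ W] {h : W → ℂ} {x : W}
    (hh : AnalyticAt ℂ h x) (hne : ¬ ∀ᶠ z in 𝓝 x, h z = 0) :
    ∃ (j : ℕ) (v : Fin j → W), iteratedFDeriv ℂ j h x v ≠ 0 := by
  by_contra hall
  push Not at hall
  apply hne
  obtain ⟨q, ρ, hq⟩ := hh
  filter_upwards [Metric.eball_mem_nhds x hq.r_pos] with y hy
  have h1 := hq.hasSum_sub hy
  have h2 : ∀ j, (q j fun _ => y - x) = 0 := by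
    intro j
    have h3 := hq.factorial_smul (y - x) j
    rw [hall j (fun _ => y - x)] at h3
    simpa [Nat.factorial_ne_zero] using h3
  simp only [h2] at h1
  exact h1.unique hasSum_zero

/-- **Lemma A**: the singular points. -/
theorem thin_sing {T : Set (Fin (p + 1) → ℂ)} (hint : interior T = ∅) {x : Fin (p + 1) → ℂ}
    (hT : AnAt T x) : ∃ V ∈ 𝓝 x, Thin p {z | (z ∈ T ∧ ¬ SmAt T z) ∧ z ∈ V} := by
  obtain ⟨V₀, hV₀, ι, h, hh, hTh⟩ := hT
  obtain ⟨r, hr, hrV⟩ := Metric.mem_nhds_iff.1 hV₀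
  have hnz : ∀ i, ∀ s ∈ ball x r, (∀ᶠ z in 𝓝 s, h i z = 0) → ∀ z ∈ ball x r, h i z = 0 := by
    intro i s hs h1
    have h2 : AnalyticOnNhd ℂ (h i) (ball x r) := fun z hz => hh i z (hrV hz)
    exact h2.eqOn_zero_of_preconnected_of_eventuallyEq_zero (convex_ball _ _).isPreconnected hs h1
  obtain ⟨i₀, hi₀⟩ : ∃ i, ¬ ∀ᶠ z in 𝓝 x, h i z = 0 := by
    by_contra hcon
    push Not at hcon
    have h1 : ball x r ⊆ T := fun z hz =>
      (hTh z (hrV hz)).2 fun i => hnz i x (mem_ball_self hr) (hcon i) z hz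
    have h2 : x ∈ interior T := mem_interior.2 ⟨_, h1, isOpen_ball, mem_ball_self hr⟩
    rw [hint] at h2
    exact h2
  obtain ⟨m, v, hv⟩ := exists_order (hh i₀ x (hrV (mem_ball_self hr))) hi₀
  refine thin_order (B := ball x r) isOpen_ball (h := h) (fun i s hs => hh i s (hrV hs))
    (fun s hs => hTh s (hrV hs)) i₀ (fun s hs hcon => hi₀ ?_) m x (mem_ball_self hr)
    ⟨m, le_rfl, v, hv⟩
  filter_upwards [isOpen_ball.mem_nhds (mem_ball_self hr)] with z hz
  exact hnz i₀ s hs hcon z hz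

end Vale.Agent.P284.H136
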