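import Vale.Agent.P284.H136.Div1
import Vale.Agent.P284.H335.Rem

/-!
# P284 (helper136), MF(II), (D1)(B), part 3: tools (removable singularities, products)
-/

open scoped Topology ContDiff ENNReal
open Filter Set Metric Module MeasureTheory

noncomputable section

namespace Vale.Agent.P284.H136

theorem cov_prod {k : ℕ} {W : Type} [NormedAddCommGroup W] [NormedSpace ℂ W] {S : Set W}
    (h : H10.Cov k S) : H10.Cov (k + 1) (S ×ˢ (univ : Set ℂ)) := by
  obtain ⟨G, T, h1, h2⟩ := h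
  have h3 : S ×ˢ (univ : Set ℂ) ⊆
      ⋃ i, (fun q : (Fin k → ℂ) × ℂ => (G i q.1, q.2)) '' (T i ×ˢ univ) := by
    rintro ⟨x, s⟩ ⟨hx, -⟩
    obtain ⟨i, u, hu, hux⟩ := mem_iUnion.1 (h2 hx)
    refine mem_iUnion.2 ⟨i, (u, s), ⟨hu, mem_univ _⟩, ?_⟩
    show (G i u, s) = (x, s)
    rw [hux]
  refine (H10.Cov.iUnion fun i => ?_).mono h3
  refine H10.Cov.of_image (by simp) ?_
  rintro ⟨u, s⟩ ⟨hu, -⟩
  have h4 : DifferentiableAt ℂ (fun q : (Fin k → ℂ) × ℂ => G i q.1) (u, s) :=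
    (h1 i u hu).comp (u, s) differentiableAt_fst
  exact h4.prodMk differentiableAt_snd

/-- Riemann's extension theorem across sets covered by countably many images of `ℂ^k`, in
dimension `k + 1`. -/
theorem removable_fd {k : ℕ} {W : Type} [NormedAddCommGroup W] [NormedSpace ℂ W]
    [FiniteDimensional ℂ W] (hW : finrank ℂ W = k + 1) {U S : Set W} (hU : IsOpen U)
    (hUS : IsOpen (U \ S)) (hS : H10.Cov k S) {f : W → ℂ} (hf : DifferentiableOn ℂ f (U \ S))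
    (hb : ∀ x ∈ U, ∃ C : ℝ, ∀ᶠ z in 𝓝 x, z ∈ U → z ∉ S → ‖f z‖ ≤ C) :
    ∃ F : W → ℂ, DifferentiableOn ℂ F U ∧ ∀ z ∈ U, z ∉ S → F z = f z := by
  let L : (Fin (k + 1) → ℂ) ≃L[ℂ] W := ContinuousLinearEquiv.ofFinrankEq (by simp [hW])
  have hUS' : IsOpen ((L ⁻¹' U) \ (L ⁻¹' S)) := by
    rw [← preimage_diff]
    exact hUS.preimage L.continuous
  have hS' : H10.Cov k (L ⁻¹' S) := by
    refine (hS.image (g := L.symm) fun x _ => L.symm.differentiableAt).mono ?_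
    intro z hz
    exact ⟨L z, hz, L.symm_apply_apply z⟩
  have hf' : DifferentiableOn ℂ (fun z => f (L z)) ((L ⁻¹' U) \ (L ⁻¹' S)) :=
    hf.comp L.differentiable.differentiableOn fun z hz => hz
  obtain ⟨F, hF, hFe⟩ := H335.removable_cov hS' (hU.preimage L.continuous) hUS' hf' (by
    intro z hz
    obtain ⟨C, hC⟩ := hb (L z) hz
    have h1 : ∀ᶠ z' in 𝓝 z, (L z' ∈ U → L z' ∉ S → ‖f (L z')‖ ≤ C) ∧ L z' ∈ U :=
      (L.continuous.continuousAt.eventually hC).and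
        (L.continuous.continuousAt.eventually (hU.mem_nhds hz))
    obtain ⟨r, hr, hb⟩ := Metric.eventually_nhds_iff_ball.1 h1
    refine ⟨r, hr, ?_⟩
    have h2 : ∫⁻ z' in ball z r \ (L ⁻¹' S), ‖f (L z')‖ₑ ^ 2 ≤
        ∫⁻ z' in ball z r \ (L ⁻¹' S), ENNReal.ofReal C ^ 2 := by
      refine lintegral_mono_ae ?_
      have hm : MeasurableSet (ball z r \ (L ⁻¹' S)) := by
        have : ball z r \ (L ⁻¹' S) = ball z r ∩ ((L ⁻¹' U) \ (L ⁻¹' S)) := by
          ext z'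
          constructor
          · rintro ⟨h3, h4⟩
            exact ⟨h3, (hb z' h3).2, h4⟩
          · rintro ⟨h3, -, h4⟩
            exact ⟨h3, h4⟩
        rw [this]
        exact (isOpen_ball.inter hUS').measurableSet
      refine (ae_restrict_iff' hm).2 (Eventually.of_forall fun z' hz' => ?_)
      have h3 := (hb z' hz'.1).1 (hb z' hz'.1).2 hz'.2
      gcongr
      rw [← ofReal_norm_eq_enorm]
      exact ENNReal.ofReal_le_ofReal h3
    refine ne_top_of_le_ne_top ?_ h2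
    rw [setLIntegral_const]
    refine ENNReal.mul_ne_top (by simp) ?_
    exact (measure_lt_top_of_subset sdiff_subset measure_ball_lt_top.ne).ne)
  refine ⟨fun z => F (L.symm z), ?_, ?_⟩
  · refine hF.comp L.symm.differentiable.differentiableOn ?_
    intro z hz
    show L (L.symm z) ∈ U
    rwa [L.apply_symm_apply]
  · intro z hzU hzS
    have h1 := hFe (x := L.symm z) ⟨by simpa using hzU, by simpa using hzS⟩
    simpa using h1

/-- factorization of a holomorphic function of one variable with given zeros -/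
theorem exists_factor_fin {O : Set ℂ} (hO : IsOpen O) (Φ : Finset ℂ) :
    ∀ {F : ℂ → ℂ}, DifferentiableOn ℂ F O → (∀ t ∈ Φ, t ∈ O ∧ F t = 0) →
      ∃ k : ℂ → ℂ, DifferentiableOn ℂ k O ∧ ∀ s, F s = (∏ t ∈ Φ, (s - t)) * k s := by
  classical
  induction Φ using Finset.induction_on with
  | empty =>
    intro F hF _
    exact ⟨F, hF, fun s => by simp⟩
  | insert a Φ ha ih =>
    intro F hF h0
    have haO := (h0 a (Finset.mem_insert_self _ _))
    have h1 : DifferentiableOn ℂ (dslope F a) O :=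
      (Complex.differentiableOn_dslope (hO.mem_nhds haO.1)).2 hF
    have h2 : ∀ s, F s = (s - a) * dslope F a s := by
      intro s
      have := sub_smul_dslope F a s
      rw [smul_eq_mul, haO.2, sub_zero] at this
      exact this.symm
    obtain ⟨k, hk, hk'⟩ := ih h1 (by
      intro t ht
      refine ⟨(h0 t (Finset.mem_insert_of_mem ht)).1, ?_⟩
      have h3 := h2 t
      rw [(h0 t (Finset.mem_insert_of_mem ht)).2] at h3
      rcases mul_eq_zero.1 h3.symm with h4 | h4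
      · exfalso
        rw [sub_eq_zero] at h4
        exact ha (h4 ▸ ht)
      · exact h4)
    refine ⟨k, hk, fun s => ?_⟩
    rw [h2 s, hk' s, Finset.prod_insert ha]
    ring

/-- maximum principle for the quotient by a polynomial -/
theorem quot_bound {s₀ : ℂ} {ρ ρ' M : ℝ} (hρ : 0 < ρ) (hρ' : ρ < ρ') {F : ℂ → ℂ}
    (hF : DifferentiableOn ℂ F (ball s₀ ρ')) (Φ : Finset ℂ)
    (h0 : ∀ t ∈ Φ, t ∈ ball s₀ ρ → F t = 0) (hs : ∀ t ∈ Φ, t ∉ sphere s₀ ρ)
    (hM : ∀ s ∈ sphere s₀ ρ, ‖F s‖ ≤ M * ‖∏ t ∈ Φ, (s - t)‖) :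
    ∀ s ∈ closedBall s₀ ρ, ‖F s‖ ≤ M * ‖∏ t ∈ Φ, (s - t)‖ := by
  classical
  set Φ₁ := Φ.filter (fun t => t ∈ ball s₀ ρ) with hΦ₁
  set Φ₂ := Φ.filter (fun t => ¬ t ∈ ball s₀ ρ) with hΦ₂
  have hsplit : ∀ s : ℂ, ∏ t ∈ Φ, (s - t) = (∏ t ∈ Φ₁, (s - t)) * ∏ t ∈ Φ₂, (s - t) := by
    intro s
    exact (Finset.prod_filter_mul_prod_filter_not Φ _ _).symm
  obtain ⟨k, hk, hFk⟩ := exists_factor_fin (O := ball s₀ ρ') isOpen_ball Φ₁ hF (by
    intro t ht
    rw [hΦ₁, Finset.mem_filter] at ht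
    exact ⟨ball_subset_ball hρ'.le ht.2, h0 t ht.1 ht.2⟩)
  have hP1 : ∀ s ∈ sphere s₀ ρ, ∏ t ∈ Φ₁, (s - t) ≠ 0 := by
    intro s hs'
    rw [Finset.prod_ne_zero_iff]
    intro t ht h1
    rw [hΦ₁, Finset.mem_filter] at ht
    rw [sub_eq_zero] at h1
    subst h1
    exact hs s ht.1 hs'
  have hP2 : ∀ s ∈ closedBall s₀ ρ, ∏ t ∈ Φ₂, (s - t) ≠ 0 := by
    intro s hs'
    rw [Finset.prod_ne_zero_iff]
    intro t ht h1
    rw [hΦ₂, Finset.mem_filter] at ht
    rw [sub_eq_zero] at h1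
    subst h1
    rcases (mem_closedBall.1 hs').lt_or_eq with h2 | h2
    · exact ht.2 (mem_ball.2 h2)
    · exact hs s ht.1 (mem_sphere.2 h2)
  have hd2 : Differentiable ℂ fun s : ℂ => ∏ t ∈ Φ₂, (s - t) := by fun_prop
  have hkey : ∀ s ∈ closedBall s₀ ρ, ‖k s / ∏ t ∈ Φ₂, (s - t)‖ ≤ M := by
    intro s hs'
    refine Complex.norm_le_of_forall_mem_frontier_norm_le (U := ball s₀ ρ)
      (f := fun s => k s / ∏ t ∈ Φ₂, (s - t)) isBounded_ball ?_ ?_ ?_
    · rw [← closure_ball s₀ hρ.ne'] at hP2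
      refine DifferentiableOn.diffContOnCl ?_
      rw [closure_ball s₀ hρ.ne'] at hP2 ⊢
      refine DifferentiableOn.div (hk.mono (closedBall_subset_ball hρ')) hd2.differentiableOn hP2
    · intro s' hs''
      rw [frontier_ball s₀ hρ.ne'] at hs''
      have h1 := hM s' hs''
      rw [hFk, hsplit, norm_mul, norm_mul] at h1
      have h2 : 0 < ‖∏ t ∈ Φ₁, (s' - t)‖ := norm_pos_iff.2 (hP1 s' hs'')
      have h3 : 0 < ‖∏ t ∈ Φ₂, (s' - t)‖ := norm_pos_iff.2 (hP2 s' (sphere_subset_closedBall hs''))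
      rw [norm_div, div_le_iff₀ h3]
      have h4 : ‖∏ t ∈ Φ₁, (s' - t)‖ * ‖k s'‖ ≤
          ‖∏ t ∈ Φ₁, (s' - t)‖ * (M * ‖∏ t ∈ Φ₂, (s' - t)‖) := by
        calc _ ≤ _ := h1
          _ = _ := by ring
      exact le_of_mul_le_mul_left h4 h2
    · rw [closure_ball s₀ hρ.ne']
      exact hs'
  intro s hs'
  have h3 : 0 < ‖∏ t ∈ Φ₂, (s - t)‖ := norm_pos_iff.2 (hP2 s hs')
  have h4 := hkey s hs'
  rw [norm_div, div_le_iff₀ h3] at h4
  rw [hFk, hsplit, norm_mul, norm_mul]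
  calc ‖∏ t ∈ Φ₁, (s - t)‖ * ‖k s‖ ≤ ‖∏ t ∈ Φ₁, (s - t)‖ * (M * ‖∏ t ∈ Φ₂, (s - t)‖) := by
        gcongr
    _ = _ := by ring

end Vale.Agent.P284.H136
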