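import Vale.Agent.P284.H136.Div3

/-!
# P284 (helper136), MF(II), (D1)(B), part 4: the box
-/

open scoped Topology ContDiff ENNReal
open Filter Set Metric Module

noncomputable section

namespace Vale.Agent.P284.H136

variable {p : ℕ} {D : Set ((Fin p → ℂ) × ℂ)} {r : ℝ}

/-- `D` is the graph of a holomorphic function near `w` -/
def Gr (D : Set ((Fin p → ℂ) × ℂ)) (w : (Fin p → ℂ) × ℂ) : Prop :=
  ∃ σ : (Fin p → ℂ) → ℂ, AnalyticAt ℂ σ w.1 ∧ σ w.1 = w.2 ∧ ∀ᶠ z in 𝓝 w, z ∈ D ↔ z.2 = σ z.1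

theorem Gr.mem {w : (Fin p → ℂ) × ℂ} (h : Gr D w) : w ∈ D := by
  obtain ⟨σ, -, h1, h2⟩ := h
  exact h2.self_of_nhds.2 h1.symm

/-- the base points over which `D` is not étale -/
def bad (D : Set ((Fin p → ℂ) × ℂ)) (r : ℝ) : Set (Fin p → ℂ) :=
  {b | b ∈ ball (0 : Fin p → ℂ) r ∧ ∃ s : ℂ, ‖s‖ ≤ 1 ∧ (b, s) ∈ D ∧ ¬ Gr D (b, s)}

structure Box (D : Set ((Fin p → ℂ) × ℂ)) (r : ℝ) : Prop where
  cl : IsClosed D
  circ : ∀ b ∈ ball (0 : Fin p → ℂ) r, ∀ s : ℂ, ‖s‖ = 1 → (b, s) ∉ D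
  bad : Thin p (bad D r)
  dense : ∀ w ∈ D, w ∈ closure {w | Gr D w}

/-- the fibre -/
def fs (D : Set ((Fin p → ℂ) × ℂ)) (b : Fin p → ℂ) : Set ℂ := {s | ‖s‖ ≤ 1 ∧ (b, s) ∈ D}

/-- the polynomial -/
def Q (D : Set ((Fin p → ℂ) × ℂ)) (z : (Fin p → ℂ) × ℂ) : ℂ := ∏ᶠ t ∈ fs D z.1, (z.2 - t)

namespace Box

theorem fibre (h : Box D r) {b₀ : Fin p → ℂ} (hb₀ : b₀ ∈ ball (0 : Fin p → ℂ) r)
    (hnb : b₀ ∉ H136.bad D r) : ∃ (Φ : Finset ℂ) (σ : ℂ → (Fin p → ℂ) → ℂ),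
      (∀ t ∈ Φ, AnalyticAt ℂ (σ t) b₀ ∧ σ t b₀ = t ∧ ‖t‖ < 1) ∧
      ∀ᶠ b in 𝓝 b₀, b ∈ ball (0 : Fin p → ℂ) r ∧ b ∉ H136.bad D r ∧
        (∀ s : ℂ, ‖s‖ ≤ 1 → ((b, s) ∈ D ↔ ∃ t ∈ Φ, σ t b = s)) ∧
        Set.InjOn (fun t => σ t b) Φ ∧ ∀ t ∈ Φ, ‖σ t b‖ < 1 := by
  classical
  have hgr : ∀ s ∈ fs D b₀, Gr D (b₀, s) := by
    intro s hs
    by_contra hcon
    exact hnb ⟨hb₀, s, hs.1, hs.2, hcon⟩
  have hfin : (fs D b₀).Finite := by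
    by_contra hinf
    have hsub : fs D b₀ ⊆ closedBall (0 : ℂ) 1 := fun s hs => by
      rw [mem_closedBall_zero_iff]
      exact hs.1
    obtain ⟨s, hs, hacc⟩ := Set.Infinite.exists_accPt_of_subset_isCompact hinf
      (isCompact_closedBall (0 : ℂ) 1) hsub
    rw [accPt_iff_frequently] at hacc
    have hcont : Continuous fun s : ℂ => (b₀, s) := by fun_prop
    have hsm : s ∈ fs D b₀ := by
      have h1 : IsClosed (fs D b₀) := by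
        have : fs D b₀ = closedBall (0 : ℂ) 1 ∩ (fun s : ℂ => (b₀, s)) ⁻¹' D := by
          ext s
          simp [fs]
        rw [this]
        exact isClosed_closedBall.inter (h.cl.preimage hcont)
      rw [← h1.closure_eq, mem_closure_iff_frequently]
      exact hacc.mono fun y hy => hy.2
    obtain ⟨σ, -, h1, h2⟩ := hgr s hsm
    have h3 := hcont.continuousAt.eventually h2
    obtain ⟨y, ⟨hy1, hy2⟩, hy3⟩ := (hacc.and_eventually h3).exists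
    have h4 : y = σ b₀ := hy3.1 hy2.2
    exact hy1 (h4.trans h1)
  choose! σ hσ using hgr
  set Φ := hfin.toFinset with hΦ
  have hΦm : ∀ t, t ∈ Φ ↔ t ∈ fs D b₀ := fun t => by rw [hΦ, Set.Finite.mem_toFinset]
  have hlt : ∀ t ∈ Φ, ‖t‖ < 1 := by
    intro t ht
    have h1 := (hΦm t).1 ht
    exact lt_of_le_of_ne h1.1 fun h2 => h.circ b₀ hb₀ t h2 h1.2
  have hU : ∀ t ∈ Φ, ∃ U : Set ((Fin p → ℂ) × ℂ), IsOpen U ∧ (b₀, t) ∈ U ∧
      ∀ z ∈ U, z ∈ D ↔ z.2 = σ t z.1 := by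
    intro t ht
    obtain ⟨U, h1, h2, h3⟩ := _root_.eventually_nhds_iff.1 (hσ t ((hΦm t).1 ht)).2.2
    exact ⟨U, h2, h3, h1⟩
  choose! U hUo hUm hUD using hU
  set O : Set ((Fin p → ℂ) × ℂ) := Dᶜ ∪ ⋃ t ∈ Φ, U t with hO
  have hOo : IsOpen O := h.cl.isOpen_compl.union (isOpen_biUnion fun t ht => hUo t ht)
  obtain ⟨N, N', hN, hN', hbN, hdN', hNN⟩ := generalized_tube_lemma
    (isCompact_singleton (x := b₀)) (isCompact_closedBall (0 : ℂ) 1) hOo (by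
      rintro ⟨b, s⟩ ⟨hb, hs⟩
      rw [mem_singleton_iff] at hb
      simp only at hb hs
      subst hb
      rw [mem_closedBall_zero_iff] at hs
      by_cases hsD : (b, s) ∈ D
      · right
        exact mem_iUnion₂.2 ⟨s, (hΦm s).2 ⟨hs, hsD⟩, hUm s ((hΦm s).2 ⟨hs, hsD⟩)⟩
      · exact Or.inl hsD)
  refine ⟨Φ, σ, fun t ht => ⟨(hσ t ((hΦm t).1 ht)).1, (hσ t ((hΦm t).1 ht)).2.1, hlt t ht⟩, ?_⟩
  have e1 : ∀ᶠ b in 𝓝 b₀, ∀ t ∈ Φ, (b, σ t b) ∈ U t ∧ ‖σ t b‖ < 1 ∧ AnalyticAt ℂ (σ t) b := by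
    rw [Filter.eventually_all_finset]
    intro t ht
    obtain ⟨h1, h2, -⟩ := hσ t ((hΦm t).1 ht)
    have h3 : ContinuousAt (fun b => (b, σ t b)) b₀ := continuousAt_id.prodMk h1.continuousAt
    have h2' : σ t b₀ = t := h2
    have h4 : U t ∈ 𝓝 (b₀, σ t b₀) := by
      rw [h2']
      exact (hUo t ht).mem_nhds (hUm t ht)
    have h5 : ∀ᶠ b in 𝓝 b₀, ‖σ t b‖ < 1 := by
      refine h1.continuousAt.norm.eventually_lt_const ?_
      show ‖σ t b₀‖ < 1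
      rw [h2']
      exact hlt t ht
    exact Filter.Eventually.and (h3 h4) (h5.and h1.eventually_analyticAt)
  have e2 : ∀ᶠ b in 𝓝 b₀, ∀ t ∈ Φ, ∀ t' ∈ Φ, t ≠ t' → σ t b ≠ σ t' b := by
    rw [Filter.eventually_all_finset]
    intro t ht
    rw [Filter.eventually_all_finset]
    intro t' ht'
    by_cases htt : t = t'
    · exact Eventually.of_forall fun b hb => absurd htt hb
    · have h1 := hσ t ((hΦm t).1 ht)
      have h2 := hσ t' ((hΦm t').1 ht')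
      have h3 : ∀ᶠ b in 𝓝 b₀, σ t b - σ t' b ≠ 0 := by
        have h4 : σ t b₀ = t := h1.2.1
        have h5 : σ t' b₀ = t' := h2.2.1
        have h6 : ContinuousAt (fun b => σ t b - σ t' b) b₀ :=
          ContinuousAt.sub (f := σ t) (g := σ t') h1.1.continuousAt h2.1.continuousAt
        refine h6.eventually_ne ?_
        rw [h4, h5]
        exact sub_ne_zero.2 htt
      filter_upwards [h3] with b h4 _ h5
      exact h4 (sub_eq_zero.2 h5)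
  filter_upwards [e1, e2, isOpen_ball.mem_nhds hb₀, hN.mem_nhds (hbN (mem_singleton _))]
    with b h1 h2 h3 h4
  have hmem : ∀ s : ℂ, ‖s‖ ≤ 1 → (b, s) ∈ D → ∃ t ∈ Φ, (b, s) ∈ U t ∧ σ t b = s := by
    intro s hs hsD
    have h5 : (b, s) ∈ O := hNN ⟨h4, hdN' (by rwa [mem_closedBall_zero_iff])⟩
    rcases h5 with h5 | h5
    · exact absurd hsD h5
    · obtain ⟨t, ht, htU⟩ := mem_iUnion₂.1 h5
      exact ⟨t, ht, htU, ((hUD t ht _ htU).1 hsD).symm⟩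
  refine ⟨h3, ?_, ?_, ?_, fun t ht => (h1 t ht).2.1⟩
  · rintro ⟨-, s, hs, hsD, hsG⟩
    apply hsG
    obtain ⟨t, ht, htU, hts⟩ := hmem s hs hsD
    refine ⟨σ t, (h1 t ht).2.2, hts, ?_⟩
    filter_upwards [(hUo t ht).mem_nhds htU] with z hz
    exact hUD t ht z hz
  · intro s hs
    constructor
    · intro hsD
      obtain ⟨t, ht, -, hts⟩ := hmem s hs hsD
      exact ⟨t, ht, hts⟩
    · rintro ⟨t, ht, rfl⟩
      exact (hUD t ht _ (h1 t ht).1).2 rfl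
  · intro t ht t' ht' htt
    by_contra hne
    exact h2 t ht t' ht' hne htt

/-- the fibre lemma for `Q` -/
theorem fibre_Q (h : Box D r) {b₀ : Fin p → ℂ} (hb₀ : b₀ ∈ ball (0 : Fin p → ℂ) r)
    (hnb : b₀ ∉ H136.bad D r) : ∃ (Φ : Finset ℂ) (σ : ℂ → (Fin p → ℂ) → ℂ),
      (∀ t ∈ Φ, AnalyticAt ℂ (σ t) b₀ ∧ σ t b₀ = t ∧ ‖t‖ < 1) ∧ (fs D b₀ = Φ) ∧
      ∀ᶠ b in 𝓝 b₀, b ∈ ball (0 : Fin p → ℂ) r ∧ b ∉ H136.bad D r ∧
        (fs D b).ncard = Φ.card ∧ (fs D b).Finite ∧ ∀ s, Q D (b, s) = ∏ t ∈ Φ, (s - σ t b) := by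
  classical
  obtain ⟨Φ, σ, h1, h2⟩ := h.fibre hb₀ hnb
  have himg : ∀ b, (∀ s : ℂ, ‖s‖ ≤ 1 → ((b, s) ∈ D ↔ ∃ t ∈ Φ, σ t b = s)) →
      (∀ t ∈ Φ, ‖σ t b‖ < 1) → fs D b = (fun t => σ t b) '' Φ := by
    intro b h3 h4
    ext s
    constructor
    · rintro ⟨h5, h6⟩
      obtain ⟨t, ht, hts⟩ := (h3 s h5).1 h6
      exact ⟨t, ht, hts⟩
    · rintro ⟨t, ht, rfl⟩
      exact ⟨(h4 t ht).le, (h3 _ (h4 t ht).le).2 ⟨t, ht, rfl⟩⟩
  refine ⟨Φ, σ, h1, ?_, ?_⟩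
  · obtain ⟨-, -, h3, -, h4⟩ := h2.self_of_nhds
    rw [himg b₀ h3 h4]
    ext s
    constructor
    · rintro ⟨t, ht, rfl⟩
      simp only [(h1 t ht).2.1]
      exact ht
    · intro hs
      exact ⟨s, hs, (h1 s hs).2.1⟩
  · filter_upwards [h2] with b h3
    obtain ⟨h4, h5, h6, h7, h8⟩ := h3
    have h9 := himg b h6 h8
    refine ⟨h4, h5, ?_, ?_, ?_⟩
    · rw [h9, h7.ncard_image, Set.ncard_coe_finset]
    · rw [h9]
      exact Φ.finite_toSet.image _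
    · intro s
      rw [Q]
      show ∏ᶠ t ∈ fs D b, (s - t) = _
      rw [h9, finprod_mem_image h7, finprod_mem_coe_finset]

theorem isOpen_good (h : Box D r) : IsOpen (ball (0 : Fin p → ℂ) r \ H136.bad D r) := by
  rw [isOpen_iff_mem_nhds]
  rintro b ⟨hb, hb'⟩
  obtain ⟨Φ, σ, -, -, h1⟩ := h.fibre_Q hb hb'
  filter_upwards [h1] with b' h2
  exact ⟨h2.1, h2.2.1⟩

theorem good_nonempty (h : Box D r) {O : Set (Fin p → ℂ)} (hO : IsOpen O) (hne : O.Nonempty) :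
    (O \ H136.bad D r).Nonempty := by
  rcases h.bad with h1 | ⟨h1, h2⟩
  · rw [h1, sdiff_empty]
    exact hne
  · exact H10.nonempty_diff (h2.mono inter_subset_left) (by simp; omega) hO hne

theorem good_preconn (h : Box D r) : IsPreconnected (ball (0 : Fin p → ℂ) r \ H136.bad D r) := by
  rcases h.bad with h1 | ⟨h1, h2⟩
  · rw [h1, sdiff_empty]
    exact (convex_ball _ _).isPreconnected
  · exact H10.preconn_diff (h2.mono inter_subset_left) (by simp; omega) isOpen_ball (convex_ball _ _)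

theorem ncard_const (h : Box D r) : ∃ N : ℕ, ∀ b ∈ ball (0 : Fin p → ℂ) r \ H136.bad D r,
    (fs D b).ncard = N := by
  rcases (ball (0 : Fin p → ℂ) r \ H136.bad D r).eq_empty_or_nonempty with h0 | ⟨b₀, hb₀⟩
  · refine ⟨0, fun b hb => ?_⟩
    rw [h0] at hb
    exact hb.elim
  · refine ⟨(fs D b₀).ncard, fun b hb => ?_⟩
    refine h.good_preconn.constant (f := fun b => (fs D b).ncard) ?_ hb hb₀
    intro b' hb'
    obtain ⟨Φ, σ, -, -, h1⟩ := h.fibre_Q hb'.1 hb'.2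
    refine ContinuousAt.continuousWithinAt ?_
    refine (continuousAt_const (y := Φ.card)).congr ?_
    filter_upwards [h1] with b'' h2
    exact h2.2.2.1.symm

/-- **The equation.** -/
theorem exists_theta (h : Box D r) (hr : 0 < r) : ∃ (N : ℕ) (θ : (Fin p → ℂ) × ℂ → ℂ),
    DifferentiableOn ℂ θ (ball (0 : Fin p → ℂ) r ×ˢ ball (0 : ℂ) 2) ∧
    ∀ b ∈ ball (0 : Fin p → ℂ) r, b ∉ H136.bad D r → ∃ Φ : Finset ℂ, Φ.card = N ∧
      fs D b = Φ ∧ ∀ s ∈ ball (0 : ℂ) 2, θ (b, s) = ∏ t ∈ Φ, (s - t) := by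
  classical
  obtain ⟨N, hN⟩ := h.ncard_const
  have hcov : H10.Cov p (H136.bad D r ×ˢ (univ : Set ℂ)) := by
    rcases h.bad with h1 | ⟨h1, h2⟩
    · rw [h1, empty_prod]
      exact H10.Cov.empty
    · have := cov_prod h2
      rwa [Nat.sub_add_cancel h1] at this
  have hU : IsOpen (ball (0 : Fin p → ℂ) r ×ˢ ball (0 : ℂ) 2) := isOpen_ball.prod isOpen_ball
  have hUS : (ball (0 : Fin p → ℂ) r ×ˢ ball (0 : ℂ) 2) \ (H136.bad D r ×ˢ (univ : Set ℂ)) =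
      (ball (0 : Fin p → ℂ) r \ H136.bad D r) ×ˢ ball (0 : ℂ) 2 := by
    ext ⟨b, s⟩
    constructor
    · rintro ⟨⟨h1, h2⟩, h3⟩
      exact ⟨⟨h1, fun h4 => h3 ⟨h4, mem_univ _⟩⟩, h2⟩
    · rintro ⟨⟨h1, h3⟩, h2⟩
      exact ⟨⟨h1, h2⟩, fun h4 => h3 h4.1⟩
  have hloc : ∀ b ∈ ball (0 : Fin p → ℂ) r, b ∉ H136.bad D r → ∃ Φ : Finset ℂ, Φ.card = N ∧
      fs D b = Φ ∧ (∀ t ∈ Φ, ‖t‖ < 1) ∧ (∀ s, Q D (b, s) = ∏ t ∈ Φ, (s - t)) ∧
      ∀ s, DifferentiableAt ℂ (Q D) (b, s) := by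
    intro b hb hb'
    obtain ⟨Φ, σ, h1, h2, h3⟩ := h.fibre_Q hb hb'
    refine ⟨Φ, ?_, h2, fun t ht => (h1 t ht).2.2, fun s => ?_, fun s => ?_⟩
    · rw [← hN b ⟨hb, hb'⟩, h2, Set.ncard_coe_finset]
    · rw [h3.self_of_nhds.2.2.2.2 s]
      exact Finset.prod_congr rfl fun t ht => by rw [(h1 t ht).2.1]
    · have h4 : DifferentiableAt ℂ (fun z : (Fin p → ℂ) × ℂ => ∏ t ∈ Φ, (z.2 - σ t z.1)) (b, s) := by
        refine AnalyticAt.differentiableAt ?_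
        refine Finset.analyticAt_fun_prod (A := ℂ) Φ fun t ht => ?_
        have h5 : AnalyticAt ℂ (fun z : (Fin p → ℂ) × ℂ => σ t z.1) (b, s) :=
          AnalyticAt.fun_comp (g := σ t) (f := fun z : (Fin p → ℂ) × ℂ => z.1) (h1 t ht).1
            analyticAt_fst
        exact analyticAt_snd.sub h5
      refine h4.congr_of_eventuallyEq ?_
      have h6 : Tendsto (fun z : (Fin p → ℂ) × ℂ => z.1) (𝓝 (b, s)) (𝓝 b) :=
        continuous_fst.tendsto (b, s)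
      filter_upwards [h6.eventually h3] with z h7
      exact h7.2.2.2.2 z.2
  obtain ⟨θ, hθ, hθQ⟩ := removable_fd (k := p) (W := (Fin p → ℂ) × ℂ) (by simp)
    (S := H136.bad D r ×ˢ (univ : Set ℂ)) (f := Q D) hU
    (by rw [hUS]; exact h.isOpen_good.prod isOpen_ball) hcov (by
      rw [hUS]
      rintro ⟨b, s⟩ ⟨hb, -⟩
      obtain ⟨Φ, -, -, -, -, h1⟩ := hloc b hb.1 hb.2
      exact (h1 s).differentiableWithinAt) (by
      intro x _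
      refine ⟨3 ^ N, Eventually.of_forall ?_⟩
      rintro ⟨b, s⟩ ⟨hb, hs⟩ hbs
      have hb' : b ∉ H136.bad D r := fun h1 => hbs ⟨h1, mem_univ _⟩
      obtain ⟨Φ, h1, -, h2, h3, -⟩ := hloc b hb hb'
      rw [h3, norm_prod, ← h1, ← Finset.prod_const]
      refine Finset.prod_le_prod (fun t _ => norm_nonneg _) fun t ht => ?_
      have h4 : ‖s‖ < 2 := by
        have : s ∈ ball (0 : ℂ) 2 := hs
        rwa [mem_ball_zero_iff] at this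
      calc ‖s - t‖ ≤ ‖s‖ + ‖t‖ := norm_sub_le _ _
        _ ≤ 2 + 1 := add_le_add h4.le (h2 t ht).le
        _ = 3 := by norm_num)
  refine ⟨N, θ, hθ, fun b hb hb' => ?_⟩
  obtain ⟨Φ, h1, h2, -, h3, -⟩ := hloc b hb hb'
  refine ⟨Φ, h1, h2, fun s hs => ?_⟩
  rw [hθQ (b, s) ⟨hb, hs⟩ fun h4 => hb' h4.1, h3]

end Box

end Vale.Agent.P284.H136
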