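import Vale.Agent.P284.H136.Div4

/-!
# P284 (helper136), MF(II), (D1)(B), part 5: the equation of the box generates the ideal
-/

open scoped Topology ContDiff ENNReal
open Filter Set Metric Module

noncomputable section

namespace Vale.Agent.P284.H136

variable {p : ℕ} {D : Set ((Fin p → ℂ) × ℂ)} {r : ℝ}

namespace Box

/-- the data of `exists_theta` -/
def Th (D : Set ((Fin p → ℂ) × ℂ)) (r : ℝ) (N : ℕ) (θ : (Fin p → ℂ) × ℂ → ℂ) : Prop :=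
  DifferentiableOn ℂ θ (ball (0 : Fin p → ℂ) r ×ˢ ball (0 : ℂ) 2) ∧
    ∀ b ∈ ball (0 : Fin p → ℂ) r, b ∉ H136.bad D r → ∃ Φ : Finset ℂ, Φ.card = N ∧
      fs D b = Φ ∧ ∀ s ∈ ball (0 : ℂ) 2, θ (b, s) = ∏ t ∈ Φ, (s - t)

theorem th_ana {N : ℕ} {θ : (Fin p → ℂ) × ℂ → ℂ} (hT : Th D r N θ) {z : (Fin p → ℂ) × ℂ}
    (h1 : z.1 ∈ ball (0 : Fin p → ℂ) r) (h2 : z.2 ∈ ball (0 : ℂ) 2) : AnalyticAt ℂ θ z :=
  Vale.Agent.P268.analyticOnNhd_of_differentiableOn (isOpen_ball.prod isOpen_ball) hT.1 z ⟨h1, h2⟩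

theorem th_zero (h : Box D r) {N : ℕ} {θ : (Fin p → ℂ) × ℂ → ℂ} (hT : Th D r N θ)
    {b : Fin p → ℂ} (hb : b ∈ ball (0 : Fin p → ℂ) r) {s : ℂ} (hs : ‖s‖ ≤ 1) :
    (b, s) ∈ D ↔ θ (b, s) = 0 := by
  classical
  have h12 : ∀ s : ℂ, ‖s‖ ≤ 1 → s ∈ ball (0 : ℂ) 2 := fun s hs => by
    rw [mem_ball_zero_iff]
    linarith
  have hgood : ∀ b ∈ ball (0 : Fin p → ℂ) r, b ∉ H136.bad D r → ∀ s : ℂ, ‖s‖ ≤ 1 →
      ((b, s) ∈ D ↔ θ (b, s) = 0) := by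
    intro b hb hb' s hs
    obtain ⟨Φ, -, h1, h2⟩ := hT.2 b hb hb'
    rw [h2 s (h12 s hs), Finset.prod_eq_zero_iff]
    have h3 : (b, s) ∈ D ↔ s ∈ fs D b := ⟨fun h4 => ⟨hs, h4⟩, fun h4 => h4.2⟩
    rw [h3, h1]
    constructor
    · intro h4
      exact ⟨s, h4, sub_self s⟩
    · rintro ⟨t, ht, h4⟩
      rw [sub_eq_zero] at h4
      rw [h4]
      exact ht
  constructor
  · intro hD
    by_contra hne
    have hs1 : ‖s‖ < 1 := lt_of_le_of_ne hs fun h1 => h.circ b hb s h1 hD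
    have hca : ContinuousAt θ (b, s) := (th_ana (z := (b, s)) hT hb (h12 s hs)).continuousAt
    have h1 : ∀ᶠ z in 𝓝 ((b, s) : (Fin p → ℂ) × ℂ), θ z ≠ 0 ∧ z.1 ∈ ball (0 : Fin p → ℂ) r ∧
        ‖z.2‖ < 1 := by
      refine (hca.eventually_ne hne).and (Filter.Eventually.and ?_ ?_)
      · exact continuous_fst.continuousAt.eventually (isOpen_ball.mem_nhds hb)
      · exact continuous_snd.norm.continuousAt.eventually_lt_const hs1
    obtain ⟨O, hO, hOo, hOm⟩ := _root_.eventually_nhds_iff.1 h1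
    obtain ⟨w, hwO, σ, hσ, hσ0, hσD⟩ := mem_closure_iff.1 (h.dense _ hD) O hOo hOm
    have h2 : ContinuousAt (fun b' => (b', σ b')) w.1 := continuousAt_id.prodMk hσ.continuousAt
    have h3 : (w.1, σ w.1) = w := by rw [hσ0]
    have h4 : ∀ᶠ b' in 𝓝 w.1, (b', σ b') ∈ O ∧ (b', σ b') ∈ D := by
      have h5 : ∀ᶠ z in 𝓝 (w.1, σ w.1), z ∈ O ∧ (z ∈ D ↔ z.2 = σ z.1) := by
        rw [h3]
        exact Filter.Eventually.and (hOo.mem_nhds hwO) hσD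
      filter_upwards [h2.eventually h5] with b' h6
      exact ⟨h6.1, h6.2.2 rfl⟩
    obtain ⟨O', hO', hO'o, hO'm⟩ := _root_.eventually_nhds_iff.1 h4
    obtain ⟨b', hb'O, hb'⟩ := h.good_nonempty hO'o ⟨_, hO'm⟩
    obtain ⟨h5, h6⟩ := hO' b' hb'O
    obtain ⟨h7, h8, h9⟩ := hO _ h5
    exact h7 ((hgood b' h8 hb' _ h9.le).1 h6)
  · intro h0
    rw [← h.cl.closure_eq, Metric.mem_closure_iff]
    intro ε hε
    set κ := min ε (1 / 2) with hκ
    have hκ0 : 0 < κ := by positivity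
    have hκε : κ ≤ ε := min_le_left _ _
    have hκ1 : κ < 1 := by
      have h1 : κ ≤ 1 / 2 := min_le_right _ _
      linarith
    clear_value κ
    have hca : ContinuousAt θ (b, s) := (th_ana (z := (b, s)) hT hb (h12 s hs)).continuousAt
    have hc2 : ContinuousAt (fun b' : Fin p → ℂ => θ (b', s)) b := by
      have h1 : ContinuousAt (fun b' : Fin p → ℂ => (b', s)) b :=
        continuousAt_id.prodMk continuousAt_const
      exact ContinuousAt.comp (f := fun b' : Fin p → ℂ => (b', s)) (g := θ) hca h1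
    have h1 : ∀ᶠ b' in 𝓝 b, ‖θ (b', s)‖ < κ ^ N ∧ b' ∈ ball (0 : Fin p → ℂ) r ∧ b' ∈ ball b κ := by
      refine Filter.Eventually.and ?_ (Filter.Eventually.and (isOpen_ball.mem_nhds hb)
        (ball_mem_nhds _ hκ0))
      have h1 : ContinuousAt (fun b' : Fin p → ℂ => ‖θ (b', s)‖) b := hc2.norm
      have h2 : ‖θ (b, s)‖ < κ ^ N := by
        rw [h0, norm_zero]
        exact pow_pos hκ0 N
      exact h1.eventually_lt_const h2
    obtain ⟨O', hO', hO'o, hO'm⟩ := _root_.eventually_nhds_iff.1 h1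
    obtain ⟨b', hb'O, hb'⟩ := h.good_nonempty hO'o ⟨_, hO'm⟩
    obtain ⟨h5, h6, h7⟩ := hO' b' hb'O
    obtain ⟨Φ, hΦN, hΦ, hΦθ⟩ := hT.2 b' h6 hb'
    rw [hΦθ s (h12 s hs), norm_prod] at h5
    obtain ⟨t, ht, htκ⟩ : ∃ t ∈ Φ, ‖s - t‖ < κ := by
      by_contra hcon
      push Not at hcon
      have h8 : κ ^ N ≤ ∏ t ∈ Φ, ‖s - t‖ := by
        rw [← hΦN, ← Finset.prod_const]
        exact Finset.prod_le_prod (fun t _ => hκ0.le) hcon
      linarith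
    have h9 : t ∈ fs D b' := by
      rw [hΦ]
      exact ht
    refine ⟨(b', t), h9.2, ?_⟩
    rw [Prod.dist_eq]
    refine max_lt ?_ ?_
    · have : dist b' b < κ := h7
      rw [dist_comm]
      linarith
    · rw [dist_eq_norm]
      linarith

theorem th_ne (h : Box D r) {N : ℕ} {θ : (Fin p → ℂ) × ℂ → ℂ} (hT : Th D r N θ)
    {z : (Fin p → ℂ) × ℂ} (h1 : z.1 ∈ ball (0 : Fin p → ℂ) r) (h2 : z.2 ∈ ball (0 : ℂ) 2) :
    ¬ ∀ᶠ z' in 𝓝 z, θ z' = 0 := by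
  intro hcon
  have h3 : ∀ᶠ z' in 𝓝 z, θ z' = 0 ∧ z'.1 ∈ ball (0 : Fin p → ℂ) r ∧ z'.2 ∈ ball (0 : ℂ) 2 :=
    hcon.and (Filter.Eventually.and
      (continuous_fst.continuousAt.eventually (isOpen_ball.mem_nhds h1))
      (continuous_snd.continuousAt.eventually (isOpen_ball.mem_nhds h2)))
  obtain ⟨δ, hδ, hb⟩ := Metric.eventually_nhds_iff_ball.1 h3
  obtain ⟨b', hb'O, hb'⟩ := h.good_nonempty (isOpen_ball (x := z.1) (ε := δ)) ⟨_, mem_ball_self hδ⟩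
  have h4 : ∀ s ∈ ball z.2 δ, (b', s) ∈ ball z δ := by
    intro s hs
    rw [mem_ball, Prod.dist_eq]
    exact max_lt hb'O hs
  have h5 := hb _ (h4 z.2 (mem_ball_self hδ))
  obtain ⟨Φ, -, -, hΦθ⟩ := hT.2 b' h5.2.1 hb'
  have h6 : ball z.2 δ ⊆ Φ := by
    intro s hs
    have h7 := hb _ (h4 s hs)
    have h8 := h7.1
    rw [hΦθ s h7.2.2, Finset.prod_eq_zero_iff] at h8
    obtain ⟨t, ht, h9⟩ := h8
    rw [sub_eq_zero] at h9
    rw [h9]
    exact ht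
  have h7 : (ball z.2 δ).Finite := Φ.finite_toSet.subset h6
  exact (infinite_of_mem_nhds z.2 (ball_mem_nhds _ hδ)) h7

theorem th_div (h : Box D r) {N : ℕ} {θ : (Fin p → ℂ) × ℂ → ℂ} (hT : Th D r N θ)
    {b₀ : Fin p → ℂ} {s₀ : ℂ} (hb₀ : b₀ ∈ ball (0 : Fin p → ℂ) r) (hs₀ : ‖s₀‖ < 1)
    {f : (Fin p → ℂ) × ℂ → ℂ} (hf : AnalyticAt ℂ f (b₀, s₀))
    (hfD : ∀ᶠ z in 𝓝 ((b₀, s₀) : (Fin p → ℂ) × ℂ), z ∈ D → f z = 0) :
    ∃ g : (Fin p → ℂ) × ℂ → ℂ, AnalyticAt ℂ g (b₀, s₀) ∧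
      ∀ᶠ z in 𝓝 ((b₀, s₀) : (Fin p → ℂ) × ℂ), f z = g z * θ z := by
  classical
  have h12 : ∀ s : ℂ, ‖s‖ ≤ 1 → s ∈ ball (0 : ℂ) 2 := fun s hs => by
    rw [mem_ball_zero_iff]
    linarith
  -- a neighbourhood
  have h1 : ∀ᶠ z in 𝓝 ((b₀, s₀) : (Fin p → ℂ) × ℂ), AnalyticAt ℂ f z ∧ (z ∈ D → f z = 0) ∧
      z.1 ∈ ball (0 : Fin p → ℂ) r ∧ ‖z.2‖ < 1 :=
    hf.eventually_analyticAt.and (hfD.and (Filter.Eventually.and
      (continuous_fst.continuousAt.eventually (isOpen_ball.mem_nhds hb₀))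
      (continuous_snd.norm.continuousAt.eventually_lt_const hs₀)))
  obtain ⟨δ₁, hδ₁, hball⟩ := Metric.eventually_nhds_iff_ball.1 h1
  -- the line
  have hlin : AnalyticOnNhd ℂ (fun s : ℂ => θ (b₀, s)) (ball (0 : ℂ) 2) := by
    intro s hs
    exact AnalyticAt.fun_comp (g := θ) (f := fun s : ℂ => (b₀, s)) (th_ana hT hb₀ hs)
      (analyticAt_const.prod analyticAt_id)
  have hne : ∀ᶠ s in 𝓝[≠] s₀, θ (b₀, s) ≠ 0 := by
    rcases (hlin s₀ (h12 s₀ hs₀.le)).eventually_eq_zero_or_eventually_ne_zero with h2 | h2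
    · exfalso
      have h3 := hlin.eqOn_zero_of_preconnected_of_eventuallyEq_zero
        (convex_ball _ _).isPreconnected (h12 s₀ hs₀.le) h2
      have h4 : θ (b₀, 1) = 0 := h3 (h12 1 (by simp))
      exact h.circ b₀ hb₀ 1 (by simp) ((h.th_zero hT hb₀ (by simp)).2 h4)
    · exact h2
  obtain ⟨ρ₁, hρ₁, hρb⟩ := Metric.eventually_nhds_iff_ball.1 (eventually_nhdsWithin_iff.1 hne)
  obtain ⟨ρ, hρ, hρρ, hρδ⟩ : ∃ ρ : ℝ, 0 < ρ ∧ ρ < ρ₁ ∧ ρ < δ₁ :=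
    ⟨min ρ₁ δ₁ / 2, by positivity, (half_lt_self (by positivity)).trans_le (min_le_left _ _),
      (half_lt_self (by positivity)).trans_le (min_le_right _ _)⟩
  have hmem : ∀ b ∈ ball b₀ δ₁, ∀ s ∈ closedBall s₀ ρ, (b, s) ∈ ball ((b₀, s₀) : _ × ℂ) δ₁ := by
    intro b hb s hs
    rw [mem_ball, Prod.dist_eq]
    exact max_lt hb (lt_of_le_of_lt (mem_closedBall.1 hs) hρδ)
  have hsph : ∀ s ∈ sphere s₀ ρ, θ (b₀, s) ≠ 0 := by
    intro s hs
    refine hρb s ?_ ?_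
    · rw [mem_ball, mem_sphere.1 hs]
      exact hρρ
    · rintro rfl
      rw [mem_sphere, dist_self] at hs
      exact hρ.ne hs
  -- bound on the circle
  have hcf : ∀ z ∈ ball ((b₀, s₀) : (Fin p → ℂ) × ℂ) δ₁, ContinuousAt f z ∧ ContinuousAt θ z := by
    intro z hz
    obtain ⟨h2, -, h3, h4⟩ := hball z hz
    exact ⟨h2.continuousAt, (th_ana hT h3 (h12 _ h4.le)).continuousAt⟩
  obtain ⟨M, hM0, hM⟩ : ∃ M : ℝ, 0 < M ∧ ∀ s ∈ sphere s₀ ρ, ‖f (b₀, s)‖ < M * ‖θ (b₀, s)‖ := by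
    have h2 : ContinuousOn (fun s : ℂ => ‖f (b₀, s)‖ / ‖θ (b₀, s)‖) (sphere s₀ ρ) := by
      intro s hs
      have h3 := hcf _ (hmem b₀ (mem_ball_self hδ₁) s (sphere_subset_closedBall hs))
      have h4 : ContinuousAt (fun s : ℂ => (b₀, s)) s := continuousAt_const.prodMk continuousAt_id
      refine ContinuousAt.continuousWithinAt ?_
      exact (ContinuousAt.comp (g := f) h3.1 h4).norm.div (ContinuousAt.comp (g := θ) h3.2 h4).norm
        (norm_ne_zero_iff.2 (hsph s hs))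
    obtain ⟨M, hM⟩ := (isCompact_sphere s₀ ρ).bddAbove_image h2
    refine ⟨max M 0 + 1, by positivity, fun s hs => ?_⟩
    have h3 : 0 < ‖θ (b₀, s)‖ := norm_pos_iff.2 (hsph s hs)
    have h4 : ‖f (b₀, s)‖ / ‖θ (b₀, s)‖ ≤ M := hM (mem_image_of_mem _ hs)
    rw [div_le_iff₀ h3] at h4
    have h5 : M ≤ max M 0 := le_max_left _ _
    nlinarith
  -- tube lemma
  set O : Set ((Fin p → ℂ) × ℂ) := ball ((b₀, s₀) : (Fin p → ℂ) × ℂ) δ₁ ∩
    {z | ‖f z‖ < M * ‖θ z‖} with hO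
  have hOo : IsOpen O := by
    rw [isOpen_iff_mem_nhds]
    rintro z ⟨hz, hz'⟩
    obtain ⟨h2, h3⟩ := hcf z hz
    have h4 : ∀ᶠ z' in 𝓝 z, 0 < M * ‖θ z'‖ - ‖f z'‖ :=
      ((continuousAt_const.mul h3.norm).sub h2.norm).eventually_const_lt (by
        have : ‖f z‖ < M * ‖θ z‖ := hz'
        show 0 < M * ‖θ z‖ - ‖f z‖
        linarith)
    filter_upwards [h4, isOpen_ball.mem_nhds hz] with z' h5 h6
    exact ⟨h6, by
      show ‖f z'‖ < M * ‖θ z'‖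
      linarith⟩
  obtain ⟨V, V', hV, hV', hbV, hsV', hVV⟩ := generalized_tube_lemma
    (isCompact_singleton (x := b₀)) (isCompact_sphere s₀ ρ) hOo (by
      rintro ⟨b, s⟩ ⟨hb, hs⟩
      rw [mem_singleton_iff] at hb
      simp only at hb hs
      subst hb
      exact ⟨hmem b (mem_ball_self hδ₁) s (sphere_subset_closedBall hs), hM s hs⟩)
  obtain ⟨δ₂', hδ₂', hδV⟩ := Metric.isOpen_iff.1 hV b₀ (hbV (mem_singleton _))
  set δ₂ := min δ₂' δ₁ with hδ₂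
  have hδ₂0 : 0 < δ₂ := by positivity
  have hd1 : ball b₀ δ₂ ⊆ ball b₀ δ₁ := ball_subset_ball (min_le_right _ _)
  have hd2 : ∀ b ∈ ball b₀ δ₂, ∀ s ∈ sphere s₀ ρ, ‖f (b, s)‖ < M * ‖θ (b, s)‖ := by
    intro b hb s hs
    exact (hVV ⟨hδV (ball_subset_ball (min_le_left _ _) hb), hsV' hs⟩).2
  -- the bound inside
  have hin1 : ∀ b ∈ ball b₀ δ₂, b ∉ H136.bad D r → ∀ s ∈ closedBall s₀ ρ,
      ‖f (b, s)‖ ≤ M * ‖θ (b, s)‖ := by
    intro b hb hb' s hs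
    have hbr := (hball _ (hmem b (hd1 hb) s₀ (mem_closedBall_self hρ.le))).2.2.1
    obtain ⟨Φ, -, hΦ, hΦθ⟩ := hT.2 b hbr hb'
    have h2 : ∀ s ∈ closedBall s₀ ρ, θ (b, s) = ∏ t ∈ Φ, (s - t) := by
      intro s hs
      exact hΦθ s (h12 s (hball _ (hmem b (hd1 hb) s hs)).2.2.2.le)
    have h3 : DifferentiableOn ℂ (fun s => f (b, s)) (ball s₀ δ₁) := by
      intro s hs
      have h4 : (b, s) ∈ ball ((b₀, s₀) : (Fin p → ℂ) × ℂ) δ₁ := by
        rw [mem_ball, Prod.dist_eq]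
        exact max_lt (hd1 hb) hs
      have h5 := (hball _ h4).1.differentiableAt
      have h6 : DifferentiableAt ℂ (fun s : ℂ => (b, s)) s :=
        (differentiableAt_const b).prodMk differentiableAt_id
      exact (DifferentiableAt.comp (g := f) s h5 h6).differentiableWithinAt
    have h4 := quot_bound (s₀ := s₀) (ρ := ρ) (ρ' := δ₁) (M := M) hρ hρδ h3 Φ (by
      intro t ht htb
      have h5 : t ∈ fs D b := by
        rw [hΦ]
        exact ht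
      exact (hball _ (hmem b (hd1 hb) t (ball_subset_closedBall htb))).2.1 h5.2) (by
      intro t ht hts
      have h5 := hd2 b hb t hts
      rw [h2 t (sphere_subset_closedBall hts), Finset.prod_eq_zero ht (sub_self t), norm_zero,
        mul_zero] at h5
      exact absurd h5 (not_lt.2 (norm_nonneg _))) (by
      intro s hs
      rw [← h2 s (sphere_subset_closedBall hs)]
      exact (hd2 b hb s hs).le)
    rw [h2 s hs]
    exact h4 s hs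
  have hin : ∀ b ∈ ball b₀ δ₂, ∀ s ∈ closedBall s₀ ρ, ‖f (b, s)‖ ≤ M * ‖θ (b, s)‖ := by
    intro b hb s hs
    by_contra hcon
    push Not at hcon
    obtain ⟨h2, h3⟩ := hcf _ (hmem b (hd1 hb) s hs)
    have h4 : ContinuousAt (fun b' : Fin p → ℂ => (b', s)) b :=
      continuousAt_id.prodMk continuousAt_const
    have h5 : ∀ᶠ b' in 𝓝 b, 0 < ‖f (b', s)‖ - M * ‖θ (b', s)‖ :=
      ((ContinuousAt.comp (g := f) (f := fun b' : Fin p → ℂ => (b', s)) h2 h4).norm.sub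
        (continuousAt_const.mul (ContinuousAt.comp (g := θ)
          (f := fun b' : Fin p → ℂ => (b', s)) h3 h4).norm)).eventually_const_lt (by
        show 0 < ‖f (b, s)‖ - M * ‖θ (b, s)‖
        linarith)
    obtain ⟨O', hO', hO'o, hO'm⟩ := _root_.eventually_nhds_iff.1
      (h5.and (isOpen_ball.mem_nhds hb))
    obtain ⟨b', hb'O, hb'⟩ := h.good_nonempty hO'o ⟨_, hO'm⟩
    have h6 := hin1 b' (hO' b' hb'O).2 hb' s hs
    have h7 := (hO' b' hb'O).1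
    linarith
  -- extension of the quotient
  set U : Set ((Fin p → ℂ) × ℂ) := ball b₀ δ₂ ×ˢ ball s₀ ρ with hU
  have hUo : IsOpen U := isOpen_ball.prod isOpen_ball
  have hUy : (b₀, s₀) ∈ U := ⟨mem_ball_self hδ₂0, mem_ball_self hρ⟩
  have hUb : ∀ z ∈ U, z ∈ ball ((b₀, s₀) : (Fin p → ℂ) × ℂ) δ₁ := by
    rintro ⟨b, s⟩ ⟨hb, hs⟩
    exact hmem b (hd1 hb) s (ball_subset_closedBall hs)
  have hUθ : ∀ z ∈ U, z ∈ D ↔ θ z = 0 := by
    rintro ⟨b, s⟩ hz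
    obtain ⟨-, -, h3, h4⟩ := hball _ (hUb _ hz)
    exact h.th_zero hT h3 h4.le
  have hUan : ∀ z ∈ U, AnalyticAt ℂ θ z := fun z hz =>
    th_ana hT (hball _ (hUb _ hz)).2.2.1 (h12 _ (hball _ (hUb _ hz)).2.2.2.le)
  have hcov : H10.Cov p (D ∩ U) := by
    have h2 : H10.Cov p {z | z ∈ U ∧ θ z = 0} :=
      H10.cov_zero (by simp) hUo (fun z hz => (hUan z hz).differentiableAt.differentiableWithinAt)
        fun z hz => h.th_ne hT (hball _ (hUb _ hz)).2.2.1 (h12 _ (hball _ (hUb _ hz)).2.2.2.le)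
    refine h2.mono ?_
    rintro z ⟨h3, h4⟩
    exact ⟨h4, (hUθ z h4).1 h3⟩
  obtain ⟨g, hg, hgf⟩ := removable_fd (k := p) (W := (Fin p → ℂ) × ℂ) (by simp) (U := U)
    (S := D ∩ U) (f := fun z => f z / θ z) hUo (by
      have : U \ (D ∩ U) = U ∩ Dᶜ := by
        ext z
        constructor
        · rintro ⟨h2, h3⟩
          exact ⟨h2, fun h4 => h3 ⟨h4, h2⟩⟩
        · rintro ⟨h2, h3⟩
          exact ⟨h2, fun h4 => h3 h4.1⟩
      rw [this]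
      exact hUo.inter h.cl.isOpen_compl) hcov (by
      rintro z ⟨hz, hz'⟩
      have h2 : θ z ≠ 0 := fun h3 => hz' ⟨(hUθ z hz).2 h3, hz⟩
      exact ((hball _ (hUb _ hz)).1.fun_div (hUan z hz)
        h2).differentiableAt.differentiableWithinAt) (by
      rintro x hx
      refine ⟨M, Eventually.of_forall ?_⟩
      rintro ⟨b, s⟩ hz hz'
      have h2 : θ (b, s) ≠ 0 := fun h3 => hz' ⟨(hUθ _ hz).2 h3, hz⟩
      rw [norm_div, div_le_iff₀ (norm_pos_iff.2 h2)]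
      exact hin b hz.1 s (ball_subset_closedBall hz.2))
  refine ⟨g, Vale.Agent.P268.analyticOnNhd_of_differentiableOn hUo hg _ hUy, ?_⟩
  filter_upwards [hUo.mem_nhds hUy] with z hz
  by_cases hzD : z ∈ D
  · rw [(hUθ z hz).1 hzD, mul_zero]
    exact (hball _ (hUb _ hz)).2.1 hzD
  · rw [hgf z hz fun h2 => hzD h2.1]
    have h2 : θ z ≠ 0 := fun h3 => hzD ((hUθ z hz).2 h3)
    rw [div_mul_cancel₀ _ h2]

/-- **The box.** -/
theorem gen (h : Box D r) (hr : 0 < r) : ∃ θ : (Fin p → ℂ) × ℂ → ℂ,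
    ∀ y ∈ ball (0 : Fin p → ℂ) r ×ˢ ball (0 : ℂ) 1, Gen D θ y := by
  obtain ⟨N, θ, hT⟩ := h.exists_theta hr
  have hT' : Th D r N θ := hT
  have h12 : ∀ s ∈ ball (0 : ℂ) 1, s ∈ ball (0 : ℂ) 2 := fun s hs =>
    ball_subset_ball (by norm_num) hs
  refine ⟨θ, fun y hy => ⟨th_ana hT' hy.1 (h12 _ hy.2), h.th_ne hT' hy.1 (h12 _ hy.2), ?_, ?_⟩⟩
  · filter_upwards [(isOpen_ball.prod isOpen_ball).mem_nhds hy] with z hz
    exact h.th_zero hT' hz.1 (mem_ball_zero_iff.1 hz.2).le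
  · filter_upwards [(isOpen_ball.prod isOpen_ball).mem_nhds hy] with z hz f hf hfD
    exact h.th_div hT' hz.1 (mem_ball_zero_iff.1 hz.2) hf hfD

end Box

end Vale.Agent.P284.H136
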