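import Vale.Agent.P284.H136.Div2
import Vale.Agent.P284.H136.Div5

/-!
# P284 (helper136), MF(II), (D1)(B), part 6: choice of the direction, conclusion
-/

open scoped Topology ContDiff ENNReal
open Filter Set Metric Module MeasureTheory

noncomputable section

namespace Vale.Agent.P284.H136

section general
variable {W : Type} [NormedAddCommGroup W] [NormedSpace ℂ W] [CompleteSpace W] {T : Set W} {w : W}

theorem sm_mem (h : SmAt T w) : w ∈ T := by
  obtain ⟨e, -, h0, -, h1⟩ := h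
  exact h1.self_of_nhds.2 h0

theorem dv_subset (hT : IsClosed T) : Dv T ⊆ T := closure_minimal (fun _ hw => sm_mem hw) hT

theorem sm_eventually (h : SmAt T w) : ∀ᶠ z in 𝓝 w, z ∈ T → SmAt T z := by
  obtain ⟨e, he, h0, hd, h1⟩ := h
  filter_upwards [he.eventually_analyticAt, he.fderiv.continuousAt.eventually_ne hd,
    eventually_eventually_nhds.2 h1] with z h2 h3 h4 h5
  exact ⟨e, h2, h4.self_of_nhds.1 h5, h3, h4⟩

theorem sm_dv (hT : IsClosed T) (h : SmAt T w) : ∀ᶠ z in 𝓝 w, z ∈ Dv T ↔ z ∈ T := by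
  filter_upwards [sm_eventually h] with z hz
  exact ⟨fun h1 => dv_subset hT h1, fun h1 => subset_closure (hz h1)⟩

theorem isClosed_nAn (T : Set W) : IsClosed {t | ¬ AnAt T t} := by
  rw [← isOpen_compl_iff, isOpen_iff_mem_nhds]
  intro t ht
  rw [mem_compl_iff, mem_ofPred_eq, not_not] at ht
  obtain ⟨V, hV, ι, h, h1, h2⟩ := ht
  obtain ⟨V', hV'V, hV'o, htV'⟩ := _root_.mem_nhds_iff.1 hV
  filter_upwards [hV'o.mem_nhds htV'] with s hs
  rw [mem_compl_iff, mem_ofPred_eq, not_not]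
  exact ⟨V', hV'o.mem_nhds hs, ι, h, fun i z hz => h1 i z (hV'V hz), fun z hz => h2 z (hV'V hz)⟩

end general

variable {p : ℕ}

/-- the singular points of `T` are a thin set -/
theorem thin_sing_all {T R : Set (Fin (p + 1) → ℂ)} (hint : interior T = ∅) (hR : Thin p R)
    (hA : ∀ t ∉ R, AnAt T t) : Thin p {z | z ∈ T ∧ ¬ SmAt T z} := by
  have h1 : Thin p {z | (z ∈ T ∧ ¬ SmAt T z) ∧ AnAt T z} := by
    refine Thin.locally ?_
    rintro z ⟨-, hz⟩
    obtain ⟨V, hV, h2⟩ := thin_sing hint hz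
    refine ⟨V, hV, h2.mono ?_⟩
    rintro z' ⟨⟨h3, -⟩, h4⟩
    exact ⟨h3, h4⟩
  refine (h1.union hR).mono ?_
  intro z hz
  by_cases h2 : z ∈ R
  · exact Or.inr h2
  · exact Or.inl ⟨hz, hA z h2⟩

theorem cov_of_sing {T : Set (Fin (p + 1) → ℂ)} (h : Thin p {z | z ∈ T ∧ ¬ SmAt T z}) :
    H10.Cov p T := by
  have h1 : H10.Cov p (id '' {z | SmAt T z}) := by
    refine H10.Cov.locally ?_
    rintro z ⟨e, he, h0, hd, hT⟩
    have hne : ¬ ∀ᶠ z' in 𝓝 z, e z' = 0 := by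
      intro hcon
      apply hd
      have h2 : e =ᶠ[𝓝 z] fun _ => 0 := hcon
      rw [h2.fderiv_eq]
      simp
    obtain ⟨ρ, hρ, hb⟩ := Metric.eventually_nhds_iff_ball.1 (he.eventually_analyticAt.and hT)
    refine ⟨ball z ρ, ball_mem_nhds _ hρ, ?_⟩
    rw [image_id]
    have h3 : H10.Cov p {x | x ∈ ball z ρ ∧ e x = 0} :=
      H10.cov_zero (by simp) isOpen_ball
        (fun x hx => (hb x hx).1.differentiableAt.differentiableWithinAt) fun x hx hcon => hne (by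
          have h4 : AnalyticOnNhd ℂ e (ball z ρ) := fun y hy => (hb y hy).1
          filter_upwards [isOpen_ball.mem_nhds (mem_ball_self hρ)] with y hy
          exact h4.eqOn_zero_of_preconnected_of_eventuallyEq_zero
            (convex_ball _ _).isPreconnected hx hcon hy)
    refine h3.mono ?_
    rintro x ⟨hx1, hx2⟩
    exact ⟨hx2, (hb x hx2).2.1 (sm_mem hx1)⟩
  rw [image_id] at h1
  have h2 : H10.Cov p {z | z ∈ T ∧ ¬ SmAt T z} := by
    rcases h with h | ⟨h3, h4⟩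
    · rw [h]
      exact H10.Cov.empty
    · exact h4.le (by omega)
  refine (h1.union h2).mono ?_
  intro z hz
  by_cases h3 : SmAt T z
  · exact Or.inl h3
  · exact Or.inr ⟨hz, h3⟩

/-- **The direction.** -/
theorem exists_dir {T : Set (Fin (p + 1) → ℂ)} (hT : H10.Cov p T) (x₀ : Fin (p + 1) → ℂ) :
    ∃ η : Fin (p + 1) → ℂ, η ≠ 0 ∧ (∀ t : ℂ, ‖t‖ = 1 → x₀ + t • η ∉ T) ∧
      {w | SmAt T w} ⊆ closure {w | ∃ e : (Fin (p + 1) → ℂ) → ℂ, AnalyticAt ℂ e w ∧ e w = 0 ∧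
        fderiv ℂ e w η ≠ 0 ∧ ∀ᶠ z in 𝓝 w, z ∈ T ↔ e z = 0} := by
  classical
  set G : Set (Fin (p + 1) → ℂ) := {w | SmAt T w} with hG
  obtain ⟨c, hcG, hcc, hcd⟩ : ∃ c : Set (Fin (p + 1) → ℂ), c ⊆ G ∧ c.Countable ∧ G ⊆ closure c :=
    TopologicalSpace.IsSeparable.exists_countable_dense_subset
      (TopologicalSpace.IsSeparable.of_separableSpace G)
  choose! e he he0 hed heT using fun w (hw : w ∈ G) => hw
  have h1 : ∀ᵐ v ∂(volume : Measure (Fin (p + 1) → ℂ)), ∀ w ∈ c, fderiv ℂ (e w) w v ≠ 0 := by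
    rw [ae_ball_iff hcc]
    intro w hw
    set S : Submodule ℝ (Fin (p + 1) → ℂ) :=
      (LinearMap.ker (fderiv ℂ (e w) w : (Fin (p + 1) → ℂ) →ₗ[ℂ] ℂ)).restrictScalars ℝ with hS
    have h2 : S ≠ ⊤ := by
      intro hcon
      apply hed w (hcG hw)
      ext v
      have h3 : v ∈ S := hcon ▸ Submodule.mem_top
      exact h3
    have h3 := Measure.addHaar_submodule (volume : Measure (Fin (p + 1) → ℂ)) S h2
    rw [ae_iff]
    refine measure_mono_null ?_ h3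
    intro v hv
    rw [mem_ofPred_eq, not_not] at hv
    exact hv
  have h2 := H335.ae_line_through hT x₀
  have h3 : ∀ᵐ v ∂(volume : Measure (Fin (p + 1) → ℂ)), v ≠ 0 := by
    rw [ae_iff]
    simp
  obtain ⟨v, hv1, hv2, hv3⟩ := (h1.and (h2.and h3)).exists
  have h4 : ((fun t : ℂ => ‖t‖) '' {t : ℂ | t ≠ 0 ∧ x₀ + t • v ∈ T}).Countable := hv2.image _
  obtain ⟨s, hs, hsn⟩ : ∃ s ∈ Ioo (0 : ℝ) 1,
      s ∉ (fun t : ℂ => ‖t‖) '' {t : ℂ | t ≠ 0 ∧ x₀ + t • v ∈ T} := by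
    by_contra hcon
    push Not at hcon
    have h5 : (Ioo (0 : ℝ) 1).Countable := h4.mono hcon
    have h6 : volume (Ioo (0 : ℝ) 1) = 0 := h5.measure_zero _
    rw [Real.volume_Ioo] at h6
    simp at h6
  have hs0 : ((s : ℝ) : ℂ) ≠ 0 := by
    rw [Complex.ofReal_ne_zero]
    exact hs.1.ne'
  refine ⟨(s : ℂ) • v, smul_ne_zero hs0 hv3, ?_, ?_⟩
  · intro t ht hcon
    apply hsn
    refine ⟨t * (s : ℂ), ⟨?_, ?_⟩, ?_⟩
    · refine mul_ne_zero ?_ hs0
      rintro rfl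
      simp at ht
    · rw [mul_smul]
      exact hcon
    · show ‖t * (s : ℂ)‖ = s
      rw [norm_mul, ht, one_mul, Complex.norm_real, Real.norm_eq_abs, abs_of_pos hs.1]
  · refine hcd.trans (closure_mono ?_)
    intro w hw
    refine ⟨e w, he w (hcG hw), he0 w (hcG hw), ?_, heT w (hcG hw)⟩
    rw [map_smul, smul_eq_mul]
    exact mul_ne_zero hs0 (hv1 w hw)

end Vale.Agent.P284.H136
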