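import Vale.Agent.P284.H136.Div6

/-!
# P284 (helper136), MF(II), (D1)(B), part 7: conclusion
-/

open scoped Topology ContDiff ENNReal
open Filter Set Metric Module MeasureTheory

noncomputable section

namespace Vale.Agent.P284.H136

section general
variable {W W' : Type} [NormedAddCommGroup W] [NormedSpace ℂ W] [NormedAddCommGroup W']
  [NormedSpace ℂ W']

/-- transport by an affine isomorphism -/
theorem gen_transport (L : W ≃L[ℂ] W') (x₀ : W) {D : Set W} {θ : W' → ℂ} {x : W}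
    (h : Gen ((fun z => x₀ + L.symm z) ⁻¹' D) θ (L (x - x₀))) :
    Gen D (fun z => θ (L (z - x₀))) x := by
  obtain ⟨h1, h2, h3, h4⟩ := h
  have hc : ∀ y, Tendsto (fun z => L (z - x₀)) (𝓝 y) (𝓝 (L (y - x₀))) := fun y =>
    (L.continuous.comp (continuous_id.sub continuous_const)).tendsto y
  have hc' : ∀ y, Tendsto (fun z => x₀ + L.symm z) (𝓝 y) (𝓝 (x₀ + L.symm y)) := fun y =>
    (continuous_const.add L.symm.continuous).tendsto y
  have hinv : ∀ y, x₀ + L.symm (L (y - x₀)) = y := fun y => by simp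
  have hinv' : ∀ y, L (x₀ + L.symm y - x₀) = y := fun y => by simp
  have ha : ∀ y, AnalyticAt ℂ (fun z => L (z - x₀)) y := fun y => by
    have h5 : AnalyticAt ℂ (fun z : W => z - x₀) y := analyticAt_id.sub analyticAt_const
    exact AnalyticAt.fun_comp (g := L) (f := fun z : W => z - x₀)
      ((L : W →L[ℂ] W').analyticAt _) h5
  have ha' : ∀ y, AnalyticAt ℂ (fun z => x₀ + L.symm z) y := fun y =>
    analyticAt_const.add ((L.symm : W' →L[ℂ] W).analyticAt _)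
  refine ⟨AnalyticAt.fun_comp (g := θ) (f := fun z => L (z - x₀)) h1 (ha x), ?_, ?_, ?_⟩
  · intro hcon
    apply h2
    have h5 := (hc' (L (x - x₀))).eventually (by rw [hinv]; exact hcon)
    filter_upwards [h5] with z hz
    rwa [hinv'] at hz
  · filter_upwards [(hc x).eventually h3] with z hz
    rw [← hz, mem_preimage, hinv]
  · filter_upwards [(hc x).eventually h4] with y hy f hf hfD
    obtain ⟨g, hg, hgf⟩ := hy (fun z => f (x₀ + L.symm z))
      (AnalyticAt.fun_comp (g := f) (f := fun z => x₀ + L.symm z) (by rw [hinv]; exact hf) (ha' _)) (by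
        have h5 := (hc' (L (y - x₀))).eventually (by rw [hinv]; exact hfD)
        filter_upwards [h5] with z hz hzD
        exact hz hzD)
    refine ⟨fun z => g (L (z - x₀)), AnalyticAt.fun_comp (g := g) (f := fun z => L (z - x₀)) hg
      (ha y), ?_⟩
    filter_upwards [(hc y).eventually hgf] with z hz
    rwa [hinv] at hz

end general

variable {p : ℕ}

theorem Thin.image_locally {X W : Type} [TopologicalSpace X] [SecondCountableTopology X]
    [NormedAddCommGroup W] [NormedSpace ℂ W] {f : X → W} {S : Set X}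
    (h : ∀ x ∈ S, ∃ V ∈ 𝓝 x, Thin p (f '' (S ∩ V))) : Thin p (f '' S) := by
  rcases S.eq_empty_or_nonempty with hS | ⟨x, hx⟩
  · left
    rw [hS, image_empty]
  · right
    have h1 : 1 ≤ p := by
      obtain ⟨V, hV, h2⟩ := h x hx
      rcases h2 with h2 | ⟨h2, -⟩
      · exfalso
        have : f x ∈ f '' (S ∩ V) := mem_image_of_mem f ⟨hx, mem_of_mem_nhds hV⟩
        rw [h2] at this
        exact this
      · exact h2
    refine ⟨h1, H10.Cov.locally fun y hy => ?_⟩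
    obtain ⟨V, hV, h2⟩ := h y hy
    refine ⟨V, hV, ?_⟩
    rcases h2 with h2 | ⟨-, h2⟩
    · rw [h2]
      exact H10.Cov.empty
    · exact h2

theorem Thin.image {W W' : Type} [NormedAddCommGroup W] [NormedSpace ℂ W] [NormedAddCommGroup W']
    [NormedSpace ℂ W'] {S : Set W} (h : Thin p S) {g : W → W'}
    (hg : ∀ x ∈ S, DifferentiableAt ℂ g x) : Thin p (g '' S) := by
  rcases h with h | ⟨h1, h2⟩
  · left
    rw [h, image_empty]
  · exact Or.inr ⟨h1, h2.image hg⟩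

/-- étale points -/
theorem gr_of {T : Set (Fin (p + 1) → ℂ)} (hTc : IsClosed T)
    (L : (Fin (p + 1) → ℂ) ≃L[ℂ] (Fin p → ℂ) × ℂ) {x₀ η : Fin (p + 1) → ℂ} (hL : L η = (0, 1))
    {w : Fin (p + 1) → ℂ} {e : (Fin (p + 1) → ℂ) → ℂ} (he : AnalyticAt ℂ e w) (he0 : e w = 0)
    (hde : fderiv ℂ e w η ≠ 0) (hT : ∀ᶠ z in 𝓝 w, z ∈ T ↔ e z = 0) :
    Gr ((fun z => x₀ + L.symm z) ⁻¹' Dv T) (L (w - x₀)) := by
  set Ψ : (Fin p → ℂ) × ℂ → (Fin (p + 1) → ℂ) := fun z => x₀ + L.symm z with hΨ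
  set u : (Fin p → ℂ) × ℂ := L (w - x₀) with hu
  have hΨu : Ψ u = w := by simp [hΨ, hu]
  have hΨc : Tendsto Ψ (𝓝 u) (𝓝 w) := by
    have := (continuous_const.add L.symm.continuous).tendsto u (f := Ψ)
    rwa [hΨu] at this
  have hsm : SmAt T w := ⟨e, he, he0, fun h => hde (by rw [h]; rfl), hT⟩
  set f : (Fin p → ℂ) × ℂ → ℂ := fun z => e (Ψ z) with hf
  have hΨa : AnalyticAt ℂ Ψ u :=
    analyticAt_const.add ((L.symm : (Fin p → ℂ) × ℂ →L[ℂ] (Fin (p + 1) → ℂ)).analyticAt _)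
  have hfa : AnalyticAt ℂ f u :=
    AnalyticAt.fun_comp (g := e) (f := Ψ) (by rw [hΨu]; exact he) hΨa
  have hfd : fderiv ℂ f u = (fderiv ℂ e w).comp (L.symm : (Fin p → ℂ) × ℂ →L[ℂ] (Fin (p + 1) → ℂ)) := by
    have h1 : HasFDerivAt Ψ (L.symm : (Fin p → ℂ) × ℂ →L[ℂ] (Fin (p + 1) → ℂ)) u :=
      (L.symm.hasFDerivAt).const_add x₀
    have h2 : HasFDerivAt e (fderiv ℂ e w) (Ψ u) := by
      rw [hΨu]
      exact he.differentiableAt.hasFDerivAt
    exact (h2.comp u h1).fderiv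
  have hLs : L.symm ((0 : Fin p → ℂ), (1 : ℂ)) = η := by
    rw [L.symm_apply_eq, hL]
  have hinv : (fderiv ℂ f u ∘L .inr ℂ (Fin p → ℂ) ℂ).IsInvertible := by
    refine ⟨ContinuousLinearEquiv.unitsEquivAut ℂ (Units.mk0 _ hde), ?_⟩
    ext
    show (1 : ℂ) * fderiv ℂ e w η = fderiv ℂ f u (0, 1)
    rw [hfd, one_mul, ContinuousLinearMap.comp_apply]
    show _ = fderiv ℂ e w (L.symm ((0 : Fin p → ℂ), (1 : ℂ)))
    rw [hLs]
  have hcd : ContDiffAt ℂ ω f u := hfa.contDiffAt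
  have hω : (ω : WithTop ℕ∞) ≠ 0 := by simp
  refine ⟨hcd.implicitFunction hω hinv, (hcd.contDiffAt_implicitFunction hω hinv).analyticAt,
    hcd.implicitFunction_apply_self hω hinv, ?_⟩
  have hfu : f u = 0 := by
    show e (Ψ u) = 0
    rw [hΨu]
    exact he0
  filter_upwards [hcd.eventually_apply_eq_iff_implicitFunction hω hinv, hΨc.eventually hT,
    hΨc.eventually (sm_dv hTc hsm)] with z h1 h2 h3
  have h4 : z ∈ Ψ ⁻¹' Dv T ↔ f z = f u := by
    rw [mem_preimage, h3, h2, hfu]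
  rw [h4, h1]
  exact eq_comm

/-- the image of the smooth points where `T` is tangent to `η` -/
theorem thin_tangent {T : Set (Fin (p + 1) → ℂ)} (hTc : IsClosed T)
    (L : (Fin (p + 1) → ℂ) ≃L[ℂ] (Fin p → ℂ) × ℂ) {x₀ η : Fin (p + 1) → ℂ} (hL : L η = (0, 1)) :
    Thin p ((fun w => (L (w - x₀)).1) '' {w | SmAt T w ∧
      ¬ Gr ((fun z => x₀ + L.symm z) ⁻¹' Dv T) (L (w - x₀))}) := by
  have hη0 : η ≠ 0 := by
    rintro rfl
    rw [map_zero] at hL
    have := congrArg Prod.snd hL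
    simp at this
  refine Thin.image_locally ?_
  rintro w ⟨⟨e, he, he0, hde, hT⟩, -⟩
  have hN : ∀ᶠ z in 𝓝 w, AnalyticAt ℂ e z ∧ fderiv ℂ e z ≠ 0 ∧ ∀ᶠ z' in 𝓝 z, z' ∈ T ↔ e z' = 0 :=
    he.eventually_analyticAt.and ((he.fderiv.continuousAt.eventually_ne hde).and
      (eventually_eventually_nhds.2 hT))
  obtain ⟨K, γ, ρ, V, hK, hρ, hVo, hwV, hVN, hγ, hz⟩ := exists_par (p := p) (by simp) he he0 hde hN
  refine ⟨V, hVo.mem_nhds hwV, ?_⟩
  set g : K → (Fin p → ℂ) := fun s => (L (γ s - x₀)).1 with hg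
  have hgd : ∀ s ∈ ball (0 : K) ρ, HasFDerivAt g ((ContinuousLinearMap.fst ℂ (Fin p → ℂ) ℂ).comp
      ((L : (Fin (p + 1) → ℂ) →L[ℂ] (Fin p → ℂ) × ℂ).comp (fderiv ℂ γ s))) s := by
    intro s hs
    have h1 : HasFDerivAt (fun s => γ s - x₀) (fderiv ℂ γ s) s :=
      ((hγ s hs).1.differentiableAt.hasFDerivAt).sub_const x₀
    have h2 : HasFDerivAt (fun s => L (γ s - x₀))
        ((L : (Fin (p + 1) → ℂ) →L[ℂ] (Fin p → ℂ) × ℂ).comp (fderiv ℂ γ s)) s :=
      (L.hasFDerivAt).comp s h1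
    exact h2.fst
  have hrank : ∀ s ∈ ball (0 : K) ρ, fderiv ℂ e (γ s) η = 0 →
      finrank ℂ (LinearMap.range (fderiv ℂ g s : K →ₗ[ℂ] (Fin p → ℂ))) + 1 ≤ p := by
    intro s hs hse
    by_contra hcon
    push Not at hcon
    have h1 := LinearMap.finrank_range_add_finrank_ker (fderiv ℂ g s : K →ₗ[ℂ] (Fin p → ℂ))
    rw [hK] at h1
    have h2 : finrank ℂ (LinearMap.ker (fderiv ℂ g s : K →ₗ[ℂ] (Fin p → ℂ))) = 0 := by omega
    have h3 : LinearMap.ker (fderiv ℂ g s : K →ₗ[ℂ] (Fin p → ℂ)) = ⊥ :=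
      Submodule.finrank_eq_zero.1 h2
    have hgk : ∀ k, fderiv ℂ g s k = (L (fderiv ℂ γ s k)).1 := by
      intro k
      rw [(hgd s hs).fderiv]
      rfl
    have hinj : ∀ k, fderiv ℂ γ s k = 0 → k = 0 := by
      intro k hk
      have h4 : k ∈ LinearMap.ker (fderiv ℂ g s : K →ₗ[ℂ] (Fin p → ℂ)) := by
        show fderiv ℂ g s k = 0
        rw [hgk, hk, map_zero]
        rfl
      rw [h3] at h4
      exact h4
    -- the range of `dγ` is the kernel of `de`
    have h5 : LinearMap.range (fderiv ℂ γ s : K →ₗ[ℂ] (Fin (p + 1) → ℂ)) ≤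
        LinearMap.ker (fderiv ℂ e (γ s) : (Fin (p + 1) → ℂ) →ₗ[ℂ] ℂ) := by
      rintro _ ⟨k, rfl⟩
      have h6 : HasFDerivAt (fun s => e (γ s)) ((fderiv ℂ e (γ s)).comp (fderiv ℂ γ s)) s :=
        ((hγ s hs).2.1.1.differentiableAt.hasFDerivAt).comp s
          (hγ s hs).1.differentiableAt.hasFDerivAt
      have h7 : HasFDerivAt (fun s => e (γ s)) (0 : K →L[ℂ] ℂ) s := by
        refine (hasFDerivAt_const (0 : ℂ) s).congr_of_eventuallyEq ?_
        filter_upwards [isOpen_ball.mem_nhds hs] with s' hs'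
        exact (hγ s' hs').2.2
      have h8 := congrArg (fun A : K →L[ℂ] ℂ => A k) (h6.unique h7)
      exact h8
    have h6 : finrank ℂ (LinearMap.range (fderiv ℂ γ s : K →ₗ[ℂ] (Fin (p + 1) → ℂ))) = p := by
      rw [LinearMap.finrank_range_of_inj, hK]
      intro a b hab
      have h7 := hinj (a - b) (by
        rw [map_sub]
        exact sub_eq_zero.2 hab)
      exact sub_eq_zero.1 h7
    have h7 : finrank ℂ (LinearMap.ker (fderiv ℂ e (γ s) : (Fin (p + 1) → ℂ) →ₗ[ℂ] ℂ)) = p := by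
      have h8 := LinearMap.finrank_range_add_finrank_ker
        (fderiv ℂ e (γ s) : (Fin (p + 1) → ℂ) →ₗ[ℂ] ℂ)
      have h9 : LinearMap.range (fderiv ℂ e (γ s) : (Fin (p + 1) → ℂ) →ₗ[ℂ] ℂ) = ⊤ :=
        LinearMap.range_eq_top.2 (LinearMap.surjective
          (f := (fderiv ℂ e (γ s) : (Fin (p + 1) → ℂ) →ₗ[ℂ] ℂ))
          fun hcon => (hγ s hs).2.1.2.1 (ContinuousLinearMap.coe_injective hcon))
      rw [h9, finrank_top, Module.finrank_self] at h8
      have h10 : finrank ℂ (Fin (p + 1) → ℂ) = p + 1 := by simp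
      omega
    have h8 : LinearMap.range (fderiv ℂ γ s : K →ₗ[ℂ] (Fin (p + 1) → ℂ)) =
        LinearMap.ker (fderiv ℂ e (γ s) : (Fin (p + 1) → ℂ) →ₗ[ℂ] ℂ) :=
      Submodule.eq_of_le_of_finrank_eq h5 (h6.trans h7.symm)
    have h9 : η ∈ LinearMap.range (fderiv ℂ γ s : K →ₗ[ℂ] (Fin (p + 1) → ℂ)) := by
      rw [h8]
      exact hse
    obtain ⟨k, hk⟩ := h9
    have hk' : fderiv ℂ γ s k = η := hk
    have h10 : k = 0 := by
      have h11 : k ∈ LinearMap.ker (fderiv ℂ g s : K →ₗ[ℂ] (Fin p → ℂ)) := by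
        show fderiv ℂ g s k = 0
        rw [hgk, hk', hL]
      rw [h3] at h11
      exact h11
    rw [h10, map_zero] at hk'
    exact hη0 hk'.symm
  have hsub : (fun w => (L (w - x₀)).1) '' ({w | SmAt T w ∧
      ¬ Gr ((fun z => x₀ + L.symm z) ⁻¹' Dv T) (L (w - x₀))} ∩ V) ⊆
      g '' {s | s ∈ ball (0 : K) ρ ∧ fderiv ℂ e (γ s) η = 0} := by
    rintro _ ⟨w', ⟨⟨hw1, hw2⟩, hw3⟩, rfl⟩
    obtain ⟨h1, -, h2⟩ := hVN hw3
    have h3 : e w' = 0 := h2.self_of_nhds.1 (sm_mem hw1)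
    obtain ⟨s, hs, hsw⟩ := hz w' hw3 h3
    refine ⟨s, ⟨hs, ?_⟩, ?_⟩
    · rw [hsw]
      by_contra h4
      exact hw2 (gr_of hTc L hL h1 h3 h4 h2)
    · show (L (γ s - x₀)).1 = (L (w' - x₀)).1
      rw [hsw]
  rcases Nat.eq_zero_or_pos p with hp | hp
  · left
    rw [← subset_empty_iff]
    refine hsub.trans ?_
    rintro _ ⟨s, ⟨hs, hs'⟩, -⟩
    have := hrank s hs hs'
    omega
  · right
    refine ⟨hp, ?_⟩
    have h1 := H10.img p K hK (Fin p → ℂ) g (ball (0 : K) ρ) isOpen_ball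
      (fun s hs => (hgd s hs).differentiableAt.differentiableWithinAt) (p - 1)
    refine h1.mono (hsub.trans (image_mono ?_))
    rintro s ⟨hs, hs'⟩
    refine ⟨hs, ?_⟩
    have := hrank s hs hs'
    omega

theorem exists_gen {T R : Set (Fin (p + 1) → ℂ)} (hTc : IsClosed T) (hint : interior T = ∅)
    (hR : Thin p R) (hA : ∀ t ∉ R, AnAt T t) (x₀ : Fin (p + 1) → ℂ) :
    ∃ θ, Gen (Dv T) θ x₀ := by
  have hsing := thin_sing_all hint hR hA
  obtain ⟨η, hη0, hcirc, hdense⟩ := exists_dir (cov_of_sing hsing) x₀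
  let e₀ : (Fin (p + 1) → ℂ) ≃L[ℂ] (Fin p → ℂ) × ℂ := ContinuousLinearEquiv.ofFinrankEq (by simp)
  obtain ⟨A, hA'⟩ := SeparatingDual.exists_continuousLinearEquiv_apply_eq (R := ℂ)
    (V := (Fin p → ℂ) × ℂ) (x := e₀ η) (y := ((0 : Fin p → ℂ), (1 : ℂ))) (by
      intro h
      exact hη0 (e₀.map_eq_zero_iff.1 h)) (by
      intro h
      have := congrArg Prod.snd h
      simp at this)
  set L : (Fin (p + 1) → ℂ) ≃L[ℂ] (Fin p → ℂ) × ℂ := e₀.trans A with hLdef
  have hL : L η = (0, 1) := hA'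
  have hLs : ∀ s : ℂ, L.symm ((0 : Fin p → ℂ), s) = s • η := by
    intro s
    rw [L.symm_apply_eq, map_smul, hL]
    simp
  set Ψ : (Fin p → ℂ) × ℂ → (Fin (p + 1) → ℂ) := fun z => x₀ + L.symm z with hΨ
  have hΨc : Continuous Ψ := continuous_const.add L.symm.continuous
  have hLΨ : ∀ z, L (Ψ z - x₀) = z := fun z => by simp [hΨ]
  -- the radius
  obtain ⟨V, V', hV, hV', hbV, hsV', hVV⟩ := generalized_tube_lemma
    (isCompact_singleton (x := (0 : Fin p → ℂ))) (isCompact_sphere (0 : ℂ) 1)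
    (hTc.isOpen_compl.preimage hΨc) (by
      rintro ⟨b, s⟩ ⟨hb, hs⟩
      rw [mem_singleton_iff] at hb
      simp only at hb hs
      subst hb
      show x₀ + L.symm ((0 : Fin p → ℂ), s) ∉ T
      rw [hLs]
      exact hcirc s (mem_sphere_zero_iff_norm.1 hs))
  obtain ⟨r, hr, hrV⟩ := Metric.isOpen_iff.1 hV 0 (hbV (mem_singleton _))
  have hbox : Box (Ψ ⁻¹' Dv T) r := by
    refine ⟨isClosed_closure.preimage hΨc, ?_, ?_, ?_⟩
    · intro b hb s hs hD
      exact hVV ⟨hrV hb, hsV' (mem_sphere_zero_iff_norm.2 hs)⟩ (dv_subset hTc hD)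
    · have h1 : Thin p ((fun w => (L (w - x₀)).1) '' {z | z ∈ T ∧ ¬ SmAt T z}) := by
        refine hsing.image fun w _ => ?_
        have h2 : DifferentiableAt ℂ (fun w => L (w - x₀)) w :=
          L.differentiableAt.comp w (differentiableAt_id.sub_const x₀)
        exact h2.fst
      refine (h1.union (thin_tangent hTc L (x₀ := x₀) hL)).mono ?_
      rintro b ⟨hb, s, hs, hD, hG⟩
      have h2 : L (Ψ (b, s) - x₀) = (b, s) := hLΨ _
      by_cases h3 : SmAt T (Ψ (b, s))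
      · right
        refine ⟨Ψ (b, s), ⟨h3, ?_⟩, ?_⟩
        · rw [h2]
          exact hG
        · show (L (Ψ (b, s) - x₀)).1 = b
          rw [h2]
      · left
        refine ⟨Ψ (b, s), ⟨dv_subset hTc hD, h3⟩, ?_⟩
        show (L (Ψ (b, s) - x₀)).1 = b
        rw [h2]
    · intro w hw
      have h1 : Ψ w ∈ closure {w | ∃ e : (Fin (p + 1) → ℂ) → ℂ, AnalyticAt ℂ e w ∧ e w = 0 ∧
          fderiv ℂ e w η ≠ 0 ∧ ∀ᶠ z in 𝓝 w, z ∈ T ↔ e z = 0} :=
        closure_minimal hdense isClosed_closure hw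
      have h2 : Continuous fun x : Fin (p + 1) → ℂ => L (x - x₀) :=
        L.continuous.comp (continuous_id.sub continuous_const)
      have h3 := image_closure_subset_closure_image h2 (mem_image_of_mem _ h1)
      rw [hLΨ] at h3
      refine closure_mono ?_ h3
      rintro _ ⟨x, ⟨e, he, he0, hde, heT⟩, rfl⟩
      exact gr_of hTc L hL he he0 hde heT
  obtain ⟨θ, hθ⟩ := hbox.gen hr
  refine ⟨_, gen_transport L x₀ (θ := θ) ?_⟩
  rw [sub_self, map_zero]
  exact hθ 0 ⟨mem_ball_self hr, mem_ball_self one_pos⟩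

/-- **(B)** -/
theorem divStmt : DivStmt := by
  intro p T R hTc hint hR hA
  refine ⟨?_, fun x => exists_gen hTc hint hR hA x⟩
  refine (thin_sing_all hint hR hA).mono ?_
  rintro z ⟨hz, hz'⟩
  exact ⟨hz, fun h => hz' (subset_closure h)⟩

end Vale.Agent.P284.H136
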