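import Vale.Agent.P284.H10.S4d

/-!
# P284 (helper136), MF(II), (D1)(B): the divisorial part of a closed set which is analytic off a small
set. Statements.

`T` closed subset of `ℂ^q` with empty interior, analytic near every point outside a small set: then the
closure `D` of the set of the smooth hypersurface points of `T` has local equations everywhere (which
generate the ideal of `D`), and `T \ D` is small.
-/

open scoped Topology
open Filter Set Metric

noncomputable section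

namespace Vale.Agent.P284.H136

/-- The set `S` (in a space of dimension `p + 1`) has codimension `≥ 2`: empty, or covered by
countably many images of `ℂ^{p-1}`. -/
def Thin (p : ℕ) {W : Type} [NormedAddCommGroup W] [NormedSpace ℂ W] (S : Set W) : Prop :=
  S = ∅ ∨ 1 ≤ p ∧ H10.Cov (p - 1) S

section
variable {W : Type} [NormedAddCommGroup W] [NormedSpace ℂ W]

/-- `T` is analytic near `t`. -/
def AnAt (T : Set W) (t : W) : Prop :=
  ∃ V ∈ 𝓝 t, ∃ (ι : Type) (h : ι → W → ℂ), (∀ i, ∀ s ∈ V, AnalyticAt ℂ (h i) s) ∧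
    ∀ s ∈ V, s ∈ T ↔ ∀ i, h i s = 0

/-- `T` is a smooth hypersurface near `w`. -/
def SmAt (T : Set W) (w : W) : Prop :=
  ∃ e : W → ℂ, AnalyticAt ℂ e w ∧ e w = 0 ∧ fderiv ℂ e w ≠ 0 ∧ ∀ᶠ z in 𝓝 w, z ∈ T ↔ e z = 0

/-- the divisorial part -/
def Dv (T : Set W) : Set W := closure {w | SmAt T w}

/-- `θ` is an equation of `D` near `x`, which generates the ideal of `D` at the points near `x`. -/
def Gen (D : Set W) (θ : W → ℂ) (x : W) : Prop :=
  AnalyticAt ℂ θ x ∧ (¬ ∀ᶠ z in 𝓝 x, θ z = 0) ∧ (∀ᶠ z in 𝓝 x, z ∈ D ↔ θ z = 0) ∧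
    ∀ᶠ y in 𝓝 x, ∀ f : W → ℂ, AnalyticAt ℂ f y → (∀ᶠ z in 𝓝 y, z ∈ D → f z = 0) →
      ∃ g : W → ℂ, AnalyticAt ℂ g y ∧ ∀ᶠ z in 𝓝 y, f z = g z * θ z

end

/-- **(B)** -/
def DivStmt : Prop :=
  ∀ (p : ℕ) (T R : Set (Fin (p + 1) → ℂ)), IsClosed T → interior T = ∅ → Thin p R →
    (∀ t ∉ R, AnAt T t) → Thin p (T \ Dv T) ∧ ∀ x, ∃ θ, Gen (Dv T) θ x

end Vale.Agent.P284.H136
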