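import Vale.Agent.P284.H136.Rat3
import Vale.Agent.P284.H224.RatS
import Vale.Agent.P284.H287.AE.AE1a

/-!
# P284 (helper136), RAT: `LineStmt`
-/

open scoped Topology ContDiff ENNReal Pointwise
open Set Metric Filter Module MeasureTheory

noncomputable section

namespace Vale.Agent.P284.H136.Rat

open Vale.Agent.P272.K Vale.Agent.P284.H10 Vale.Agent.P284.H224

/-! ### Mean values of `‖φ‖²` -/

section
variable {W : Type} [NormedAddCommGroup W] [InnerProductSpace ℂ W] [CompleteSpace W]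

theorem avg_sq {φ : ℂ → W} {a : ℂ} {r : ℝ} (hr : 0 < r) (hφ : DifferentiableOn ℂ φ (closedBall a r))
    (hφc : ContinuousOn φ (closedBall a r)) :
    Real.circleAverage (fun z => ‖φ z - φ a‖ ^ 2) a r =
      Real.circleAverage (fun z => ‖φ z‖ ^ 2) a r - ‖φ a‖ ^ 2 := by
  have hs : sphere a |r| ⊆ closedBall a r := by
    rw [abs_of_pos hr]; exact sphere_subset_closedBall
  have hc : ContinuousOn φ (sphere a |r|) := hφc.mono hs
  have i1 : CircleIntegrable (fun z => ‖φ z‖ ^ 2) a r := (hc.norm.pow 2).circleIntegrable'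
  have hin : ContinuousOn (fun z => inner ℂ (φ a) (φ z)) (sphere a |r|) :=
    continuousOn_const.inner hc
  have i2 : CircleIntegrable (fun z => inner ℂ (φ a) (φ z)) a r := hin.circleIntegrable'
  have i3 : CircleIntegrable (fun z => (-2 : ℝ) * (inner ℂ (φ a) (φ z)).re) a r := by
    refine ContinuousOn.circleIntegrable' ?_
    exact continuousOn_const.mul (Complex.continuous_re.comp_continuousOn hin)
  have h1 : (fun z => ‖φ z - φ a‖ ^ 2) =
      fun z => (‖φ z‖ ^ 2 + (-2 : ℝ) * (inner ℂ (φ a) (φ z)).re) + ‖φ a‖ ^ 2 := by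
    funext z
    have h2 := @norm_sub_sq ℂ W _ _ _ (φ z) (φ a)
    have h3 : RCLike.re (inner ℂ (φ z) (φ a)) = (inner ℂ (φ a) (φ z)).re :=
      inner_re_symm (𝕜 := ℂ) _ _
    rw [h2, h3]
    ring
  have hd : DiffContOnCl ℂ (fun z => inner ℂ (φ a) (φ z)) (ball a |r|) := by
    rw [abs_of_pos hr]
    refine DifferentiableOn.diffContOnCl_ball (U := closedBall a r) ?_ subset_rfl
    exact fun z hz => (innerSL ℂ (φ a)).differentiableAt.comp_differentiableWithinAt z (hφ z hz)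
  have h4 : Real.circleAverage (fun z => inner ℂ (φ a) (φ z)) a r = inner ℂ (φ a) (φ a) :=
    hd.circleAverage
  have h5 : Real.circleAverage (fun z => (inner ℂ (φ a) (φ z)).re) a r = ‖φ a‖ ^ 2 := by
    have h6 := Complex.reCLM.circleAverage_comp_comm i2
    rw [h4] at h6
    have h7 : Complex.reCLM (inner ℂ (φ a) (φ a)) = ‖φ a‖ ^ 2 := by
      rw [inner_self_eq_norm_sq_to_K]
      simp [← Complex.ofReal_pow]
    rw [h7] at h6
    exact h6
  have h8 : Real.circleAverage (fun z => (-2 : ℝ) * (inner ℂ (φ a) (φ z)).re) a r =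
      -2 * ‖φ a‖ ^ 2 := by
    have h9 := Real.circleAverage_fun_smul (𝕜 := ℝ) (a := (-2 : ℝ)) (c := a) (R := r)
      (f := fun z => (inner ℂ (φ a) (φ z)).re)
    simp only [smul_eq_mul] at h9
    rw [h9, h5]
  have i13 : CircleIntegrable (fun z => ‖φ z‖ ^ 2 + (-2 : ℝ) * (inner ℂ (φ a) (φ z)).re) a r :=
    i1.add i3
  rw [h1, Real.circleAverage_fun_add i13 (circleIntegrable_const _ _ _),
    Real.circleAverage_fun_add i1 i3, h8, Real.circleAverage_const]
  ring

theorem sq_le_avg {φ : ℂ → W} {a : ℂ} {r : ℝ} (hr : 0 < r)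
    (hφ : DifferentiableOn ℂ φ (closedBall a r)) (hφc : ContinuousOn φ (closedBall a r)) :
    ‖φ a‖ ^ 2 ≤ Real.circleAverage (fun z => ‖φ z‖ ^ 2) a r := by
  have h1 := avg_sq hr hφ hφc
  have h2 : 0 ≤ Real.circleAverage (fun z => ‖φ z - φ a‖ ^ 2) a r :=
    Real.circleAverage_nonneg_of_nonneg fun z _ => by positivity
  linarith

end

section
variable {q : ℕ} {W : Type} [NormedAddCommGroup W] [InnerProductSpace ℂ W] [CompleteSpace W]
  {D : Set (Cm q)} {𝒢 : Cm q → (Cm q → W) → Prop} {S : Cm q → ℝ}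

theorem gd_loc (hG : GD D 𝒢 S) {t₀ : Cm q} (ht₀ : t₀ ∉ D) : ∃ ρ > 0, ball t₀ ρ ⊆ Dᶜ ∧
    ∃ (k : ℕ) (f : Fin k → Cm q → W), (∀ j, DifferentiableOn ℂ (f j) (ball t₀ ρ)) ∧
      (∀ j, ∀ t ∈ ball t₀ ρ, 𝒢 t (f j)) ∧
      ∀ t ∈ ball t₀ ρ, (∀ j, ‖f j t‖ ^ 2 ≤ S t) ∧ ∃ j, S t = ‖f j t‖ ^ 2 := by
  obtain ⟨ρ₁, hρ₁, hb, h1⟩ := hG.loc t₀ ht₀
  obtain ⟨ρ₂, hρ₂, k, f, h2, h3⟩ := hG.fin t₀ ht₀
  have hs1 : ball t₀ (min ρ₁ ρ₂) ⊆ ball t₀ ρ₁ := ball_subset_ball (min_le_left _ _)
  have hs2 : ball t₀ (min ρ₁ ρ₂) ⊆ ball t₀ ρ₂ := ball_subset_ball (min_le_right _ _)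
  refine ⟨min ρ₁ ρ₂, lt_min hρ₁ hρ₂, hs1.trans hb, k, f, fun j t ht => ?_,
    fun j t ht => h2 j t (hs2 ht), fun t ht => ⟨fun j => hG.le t (hb (hs1 ht)) _ (h2 j t (hs2 ht)),
      h3 t (hs2 ht)⟩⟩
  obtain ⟨g, hg, -, hfg⟩ := h1 t (hs1 ht) (f j) (h2 j t (hs2 ht))
  exact ((hg.differentiableAt (isOpen_ball.mem_nhds (hs1 ht))).congr_of_eventuallyEq
    hfg).differentiableWithinAt

theorem gd_cont (hG : GD D 𝒢 S) {t₀ : Cm q} (ht₀ : t₀ ∉ D) : ContinuousAt S t₀ := by
  obtain ⟨ρ, hρ, -, k, f, hf, -, h1⟩ := gd_loc hG ht₀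
  obtain ⟨j₀, -⟩ := (h1 t₀ (mem_ball_self hρ)).2
  have : Nonempty (Fin k) := ⟨j₀⟩
  have h2 : ContinuousAt (fun t => Finset.univ.sup' Finset.univ_nonempty fun j => ‖f j t‖ ^ 2)
      t₀ := by
    refine ContinuousAt.finset_sup'_apply _ fun j _ => ?_
    exact (((hf j).differentiableAt (ball_mem_nhds t₀ hρ)).continuousAt.norm).pow 2
  refine h2.congr ?_
  filter_upwards [ball_mem_nhds t₀ hρ] with t ht
  refine le_antisymm (Finset.sup'_le _ _ fun j _ => (h1 t ht).1 j) ?_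
  obtain ⟨j, hj⟩ := (h1 t ht).2
  rw [hj]
  exact Finset.le_sup' (fun j => ‖f j t‖ ^ 2) (Finset.mem_univ j)

theorem gd_nonneg (hG : GD D 𝒢 S) {t : Cm q} (ht : t ∉ D) : 0 ≤ S t := by
  obtain ⟨ρ, hρ, -, k, f, -, -, h1⟩ := gd_loc hG ht
  obtain ⟨j, hj⟩ := (h1 t (mem_ball_self hρ)).2
  rw [hj]
  positivity

/-- the sub-mean value inequality on a complex line which does not meet `D` -/
theorem gd_submean (hG : GD D 𝒢 S) {t ζ : Cm q} (ht : ∀ z : ℂ, t + z • ζ ∉ D) {ρ : ℝ}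
    (hρ : 0 < ρ) : S t ≤ Real.circleAverage (fun z => S (t + z • ζ)) 0 ρ := by
  classical
  set u : ℂ → ℝ := fun z => S (t + z • ζ) with hu
  have huc : Continuous u := by
    rw [continuous_iff_continuousAt]
    intro z
    exact ContinuousAt.comp (g := S) (f := fun z : ℂ => t + z • ζ) (gd_cont hG (ht z))
      (by fun_prop)
  have hu0 : ∀ z, 0 ≤ u z := fun z => gd_nonneg hG (ht z)
  set w : ℂ → ℝ := (closedBall (0 : ℂ) ρ).indicator u with hw
  have hwu : ∀ z, w z ≤ u z := fun z => indicator_le_self' (fun z _ => hu0 z) z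
  have hwin : ∀ z ∈ closedBall (0 : ℂ) ρ, w z = u z := fun z hz => indicator_of_mem hz _
  obtain ⟨B, hB⟩ := (isCompact_closedBall (0 : ℂ) ρ).exists_bound_of_continuousOn
    huc.continuousOn
  have hB0 : 0 ≤ B := (norm_nonneg _).trans (hB 0 (mem_closedBall_self hρ.le))
  have hwB : ∀ z, |w z| ≤ B := by
    intro z
    by_cases hz : z ∈ closedBall (0 : ℂ) ρ
    · rw [hwin z hz]; exact hB z hz
    · rw [hw, indicator_of_notMem hz, abs_zero]; exact hB0
  have key := Vale.Agent.P284.H287.AE.submean (w := w) (c := 0) hρ (fun z hz => ?_) hwB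
    (fun a ha => ?_)
  · rw [hwin 0 (mem_closedBall_self hρ.le)] at key
    have h1 : Real.circleAverage w 0 ρ = Real.circleAverage u 0 ρ := by
      refine Real.circleAverage_congr_sphere fun z hz => ?_
      rw [abs_of_pos hρ] at hz
      exact hwin z (sphere_subset_closedBall hz)
    rw [h1] at key
    simpa [hu] using key
  · intro y hy
    rw [hwin z hz] at hy
    filter_upwards [huc.continuousAt.eventually (eventually_lt_nhds hy)] with z' hz'
    exact (hwu z').trans_lt hz'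
  · -- local inequality
    obtain ⟨r₀, hr₀, -, k, f, hf, -, h1⟩ := gd_loc hG (ht a)
    obtain ⟨j, hj⟩ := (h1 _ (mem_ball_self hr₀)).2
    have hlin : Tendsto (fun z : ℂ => t + z • ζ) (𝓝 a) (𝓝 (t + a • ζ)) := by
      have h3 : Continuous fun z : ℂ => t + z • ζ := by fun_prop
      exact h3.tendsto a
    obtain ⟨δ₁, hδ₁, hd1⟩ := Metric.eventually_nhds_iff_ball.1
      (hlin.eventually (ball_mem_nhds _ hr₀))
    obtain ⟨δ₂, hδ₂, hd2⟩ := Metric.isOpen_iff.1 isOpen_ball a ha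
    refine ⟨min δ₁ δ₂, lt_min hδ₁ hδ₂, fun r hr => ?_⟩
    have hr0 : 0 < r := hr.1
    have hc1 : closedBall a r ⊆ ball a δ₁ :=
      closedBall_subset_ball (hr.2.trans_le (min_le_left _ _))
    have hc2 : closedBall a r ⊆ closedBall 0 ρ :=
      ((closedBall_subset_ball (hr.2.trans_le (min_le_right _ _))).trans hd2).trans
        ball_subset_closedBall
    have hφd : DifferentiableOn ℂ (fun z : ℂ => f j (t + z • ζ)) (closedBall a r) := by
      intro z hz
      have h2 := (hf j).differentiableAt (isOpen_ball.mem_nhds (hd1 z (hc1 hz)))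
      have h3 : DifferentiableAt ℂ (fun z : ℂ => t + z • ζ) z := by fun_prop
      exact (h2.comp z h3).differentiableWithinAt
    have h2 := sq_le_avg hr0 hφd hφd.continuousOn
    have haw : w a = ‖f j (t + a • ζ)‖ ^ 2 := by
      rw [hwin a (hc2 (mem_closedBall_self hr0.le)), ← hj]
    rw [haw]
    refine h2.trans ?_
    have h3 : Real.circleAverage w a r = Real.circleAverage u a r := by
      refine Real.circleAverage_congr_sphere fun z hz => ?_
      rw [abs_of_pos hr0] at hz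
      exact hwin z (hc2 (sphere_subset_closedBall hz))
    rw [h3]
    refine Real.circleAverage_mono ?_ huc.continuousOn.circleIntegrable' fun z hz => ?_
    · refine ContinuousOn.circleIntegrable' ?_
      rw [abs_of_pos hr0]
      exact (hφd.continuousOn.mono sphere_subset_closedBall).norm.pow 2
    · rw [abs_of_pos hr0] at hz
      exact (h1 _ (hd1 z (hc1 (sphere_subset_closedBall hz)))).1 j

end

end Vale.Agent.P284.H136.Rat
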