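import Vale.Agent.P284.H136.Line

/-!
# P284 (helper136), RAT: proof of `LineStmt`
-/

open scoped Topology ContDiff ENNReal Pointwise
open Set Metric Filter Module MeasureTheory

noncomputable section

namespace Vale.Agent.P284.H136.Rat

open Vale.Agent.P272.K Vale.Agent.P284.H10 Vale.Agent.P284.H224

theorem null_line' {q : ℕ} (hq : 1 ≤ q) {D : Set (Cm q)} (h : Cov (q - 1) D) (v : Cm q) :
    volume {t : Cm q | ∃ y : ℝ, t + y • v ∈ D} = 0 := by
  obtain ⟨Γ, T, h1, h2⟩ := h
  have h4 : {t : Cm q | ∃ y : ℝ, t + y • v ∈ D} ⊆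
      ⋃ i, (fun p : (Fin (q - 1) → ℂ) × ℝ => Γ i p.1 - p.2 • v) '' {p | p.1 ∈ T i} := by
    rintro t ⟨y, hy⟩
    obtain ⟨i, x, hx, hxt⟩ := mem_iUnion.1 (h2 hy)
    refine mem_iUnion.2 ⟨i, (x, y), hx, ?_⟩
    simp only
    rw [hxt, add_sub_cancel_right]
  refine measure_mono_null h4 (measure_iUnion_null fun i => ?_)
  have h3 : finrank ℝ ((Fin (q - 1) → ℂ) × ℝ) < finrank ℝ (Cm q) := by
    rw [finrank_prod, finrank_real_of_complex, finrank_real_of_complex]
    simp
    omega
  refine Vale.Agent.P231.H649.sard_ker volume h3.le (fun p hp => ?_) (fun x hx => Or.inl h3)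
  have h5 : DifferentiableAt ℝ (fun p : (Fin (q - 1) → ℂ) × ℝ => Γ i p.1) p :=
    ((h1 i p.1 hp).restrictScalars ℝ).comp p differentiableAt_fst
  have h6 : DifferentiableAt ℝ (fun p : (Fin (q - 1) → ℂ) × ℝ => p.2) p := differentiableAt_snd
  exact h5.sub (h6.smul (differentiableAt_const v))

section
variable {W : Type} [NormedAddCommGroup W] [InnerProductSpace ℂ W] [CompleteSpace W]

/-- equality in the sub-mean value inequality of `‖φ‖²` -/
theorem const_of_avg {φ : ℂ → W} {ρ : ℝ} (hρ : 0 < ρ)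
    (hφ : DifferentiableOn ℂ φ (closedBall 0 ρ))
    (h : Real.circleAverage (fun z => ‖φ z‖ ^ 2) 0 ρ ≤ ‖φ 0‖ ^ 2) :
    ∀ z ∈ ball (0 : ℂ) ρ, φ z = φ 0 := by
  have h1 := avg_sq hρ hφ hφ.continuousOn
  have h2 : Real.circleAverage (fun z => ‖φ z - φ 0‖ ^ 2) 0 ρ ≤ 0 := by linarith
  have hmem : ∀ θ : ℝ, circleMap 0 ρ θ ∈ closedBall (0 : ℂ) ρ := fun θ =>
    circleMap_mem_closedBall 0 hρ.le θ
  have hc : Continuous fun θ : ℝ => ‖φ (circleMap 0 ρ θ) - φ 0‖ ^ 2 :=
    ((hφ.continuousOn.comp_continuous (continuous_circleMap 0 ρ) hmem).sub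
      continuous_const).norm.pow 2
  have h3 : ∀ θ ∈ Icc (0 : ℝ) (2 * Real.pi), φ (circleMap 0 ρ θ) = φ 0 := by
    intro θ hθ
    by_contra hne
    have h4 : 0 < ∫ θ in (0 : ℝ)..(2 * Real.pi), ‖φ (circleMap 0 ρ θ) - φ 0‖ ^ 2 := by
      refine intervalIntegral.integral_pos Real.two_pi_pos hc.continuousOn
        (fun x _ => by positivity) ⟨θ, hθ, ?_⟩
      have : 0 < ‖φ (circleMap 0 ρ θ) - φ 0‖ := norm_pos_iff.2 (sub_ne_zero.2 hne)
      positivity
    rw [Real.circleAverage_def, smul_eq_mul] at h2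
    have h5 : 0 < (2 * Real.pi)⁻¹ := inv_pos.2 Real.two_pi_pos
    have := mul_pos h5 h4
    linarith
  have h4 : ∀ z ∈ sphere (0 : ℂ) ρ, φ z - φ 0 = 0 := by
    intro z hz
    have h5 : z ∈ circleMap 0 ρ '' Ioc 0 (2 * Real.pi) := by
      rw [image_circleMap_Ioc, abs_of_pos hρ]; exact hz
    obtain ⟨θ, hθ, rfl⟩ := h5
    rw [h3 θ ⟨hθ.1.le, hθ.2⟩, sub_self]
  have hd : DiffContOnCl ℂ (fun z => φ z - φ 0) (ball 0 ρ) :=
    (DifferentiableOn.diffContOnCl_ball (U := closedBall 0 ρ) hφ subset_rfl).sub_const _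
  intro z hz
  have h5 := Complex.norm_le_of_forall_mem_frontier_norm_le isBounded_ball hd (C := 0)
    (fun z hz => by
      rw [frontier_ball _ hρ.ne'] at hz
      rw [h4 z hz, norm_zero]) (subset_closure hz)
  exact sub_eq_zero.1 (norm_le_zero_iff.1 h5)

end

theorem lineStmt : LineStmt := by
  classical
  intro q hq W _ _ _ Λ D 𝒢 S ζ hdisc hcoco hDc hcov hΛD hζD hG hSper hint
  have hΛD' : ∀ l ∈ Λ, ∀ t, l + t ∈ D ↔ t ∈ D := by
    intro l hl t
    constructor
    · intro h1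
      have h2 := hΛD _ (Λ.neg_mem hl) _ h1
      rwa [add_comm l, add_neg_cancel_right] at h2
    · intro h1
      rw [add_comm]
      exact hΛD l hl t h1
  -- the lattice
  have hspan : Submodule.span ℝ (Λ : Set (Cm q)) = ⊤ := by
    have h1 := H661.span_eq_of_near (Λ := Λ) hcoco (⊤ : Submodule ℝ (Cm q)) zero_lt_one
      (fun l _ _ => trivial)
    rwa [Submodule.top_coe, inter_univ] at h1
  have hb0 : (⊤ : Submodule ℝ (Cm q)) ≤ Submodule.span ℝ (Λ : Set (Cm q)) := hspan.ge
  let b := Basis.ofSpan hb0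
  have hbΛ : range b ⊆ (Λ : Set (Cm q)) := Basis.ofSpan_subset hb0
  have : Finite ↥((linearIndepOn_empty ℝ (id : Cm q → Cm q)).extend
      (empty_subset (Λ : Set (Cm q)))) := Module.Finite.finite_basis b
  have hL : ∀ l ∈ Submodule.span ℤ (range b), l ∈ Λ := by
    intro l hl
    have h1 : Submodule.span ℤ (range b) ≤ AddSubgroup.toIntSubmodule Λ :=
      Submodule.span_le.2 hbΛ
    exact h1 hl
  -- the function
  set M : Cm q → ℝ≥0∞ := Dᶜ.indicator fun t => ENNReal.ofReal (S t) with hM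
  have hMof : ∀ {t}, t ∉ D → M t = ENNReal.ofReal (S t) := fun {t} ht =>
    indicator_of_mem (s := Dᶜ) ht _
  have hMm : Measurable M := by
    have h1 : ContinuousOn (fun t => ENNReal.ofReal (S t)) Dᶜ :=
      ENNReal.continuous_ofReal.comp_continuousOn fun t ht => (gd_cont hG ht).continuousWithinAt
    rw [hM, ← piecewise_eq_indicator]
    exact h1.measurable_piecewise continuousOn_const hDc.measurableSet.compl
  have hper : ∀ l ∈ Submodule.span ℤ (range b), ∀ t, M (l + t) = M t := by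
    intro l hl t
    by_cases ht : t ∈ D
    · have ht' : l + t ∈ D := (hΛD' l (hL l hl) t).2 ht
      rw [hM, indicator_of_notMem (not_not.2 ht'), indicator_of_notMem (not_not.2 ht)]
    · have ht' : l + t ∉ D := fun h1 => ht ((hΛD' l (hL l hl) t).1 h1)
      rw [hMof ht, hMof ht', add_comm, hSper l (hL l hl) t ht]
  set F := ZSpan.fundamentalDomain b with hF
  have hFf := ZSpan.isAddFundamentalDomain' b (volume : Measure (Cm q))
  have : Countable (Submodule.span ℤ (range b)).toAddSubgroup := by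
    change Countable (Submodule.span ℤ (range b))
    infer_instance
  have hfin : ∫⁻ t in F, M t ≠ ⊤ := by
    obtain ⟨R, hR⟩ := (ZSpan.fundamentalDomain_isBounded b).subset_ball (0 : Cm q)
    refine ne_top_of_le_ne_top (hint R).ne ((lintegral_mono_set hR).trans
      (lintegral_mono fun t => ?_))
    exact indicator_le_self _ _ t
  -- almost every complex line avoids `D`
  have hline : ∀ᵐ t : Cm q, ∀ z : ℂ, t + z • ζ ∉ D := by
    have h1 := null_line' hq hcov (Complex.I • ζ)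
    filter_upwards [compl_mem_ae_iff.2 h1] with t ht z hz
    refine ht ⟨z.im, ?_⟩
    have h2 := hζD (-z.re) _ hz
    rw [split_z, neg_smul, add_neg_cancel_right] at h2
    exact h2
  -- a small circle
  obtain ⟨t₀, -, ht₀⟩ := nonempty_diff (hcov.mono (inter_subset_left (t := univ)))
    (dim_ok hq) isOpen_univ univ_nonempty
  obtain ⟨ρ₀, hρ₀, hbD, k, f, hf, hf𝒢, hfS⟩ := gd_loc hG ht₀
  set ρ : ℝ := ρ₀ / (2 * (‖ζ‖ + 1)) with hρd
  have hζ1 : 0 < ‖ζ‖ + 1 := by positivity
  have hρ : 0 < ρ := by positivity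
  have hρζ : ρ * ‖ζ‖ < ρ₀ / 2 := by
    have h1 : ρ * (‖ζ‖ + 1) = ρ₀ / 2 := by
      rw [hρd]; field_simp
    nlinarith
  -- means over the circle
  set K : Cm q → ℝ≥0∞ := fun t => ∫⁻ θ in Ioc (0 : ℝ) (2 * Real.pi),
    M (t + circleMap 0 ρ θ • ζ) with hK
  have hKof : ∀ t : Cm q, (∀ z : ℂ, t + z • ζ ∉ D) → K t = ENNReal.ofReal (2 * Real.pi *
      Real.circleAverage (fun z => S (t + z • ζ)) 0 ρ) := by
    intro t ht
    have hc : Continuous fun z : ℂ => S (t + z • ζ) := by
      rw [continuous_iff_continuousAt]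
      intro z
      exact ContinuousAt.comp (g := S) (f := fun z : ℂ => t + z • ζ) (gd_cont hG (ht z))
        (by fun_prop)
    have hc2 : Continuous fun θ : ℝ => S (t + circleMap 0 ρ θ • ζ) :=
      hc.comp (continuous_circleMap 0 ρ)
    have h1 : 2 * Real.pi * Real.circleAverage (fun z => S (t + z • ζ)) 0 ρ =
        ∫ θ in Ioc (0 : ℝ) (2 * Real.pi), S (t + circleMap 0 ρ θ • ζ) := by
      rw [Real.circleAverage_def, smul_eq_mul, ← mul_assoc,
        mul_inv_cancel₀ Real.two_pi_pos.ne', one_mul,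
        intervalIntegral.integral_of_le Real.two_pi_pos.le]
    rw [h1, ofReal_integral_eq_lintegral_ofReal]
    · refine lintegral_congr fun θ => ?_
      exact hMof (ht _)
    · exact (hc2.continuousOn.integrableOn_Icc (a := (0 : ℝ)) (b := 2 * Real.pi)).mono_set
        Ioc_subset_Icc_self
    · exact Eventually.of_forall fun θ => gd_nonneg hG (ht _)
  have hle : ∀ᵐ t : Cm q, ENNReal.ofReal (2 * Real.pi) * M t ≤ K t := by
    filter_upwards [hline] with t ht
    have ht0 : t ∉ D := by simpa using ht 0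
    rw [hKof t ht, hMof ht0, ← ENNReal.ofReal_mul Real.two_pi_pos.le]
    refine ENNReal.ofReal_le_ofReal ?_
    gcongr
    exact gd_submean hG ht hρ
  have hmeas2 : Measurable fun x : Cm q × ℝ => M (x.1 + circleMap 0 ρ x.2 • ζ) := by
    refine hMm.comp ?_
    have h1 : Continuous fun x : Cm q × ℝ => x.1 + circleMap 0 ρ x.2 • ζ :=
      continuous_fst.add (((continuous_circleMap 0 ρ).comp continuous_snd).smul continuous_const)
    exact h1.measurable
  have hKm : Measurable K := hmeas2.lintegral_prod_right'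
  have hint2 : ∫⁻ t in F, K t = ∫⁻ t in F, ENNReal.ofReal (2 * Real.pi) * M t := by
    rw [lintegral_const_mul _ hMm]
    have h1 : ∫⁻ t in F, K t = ∫⁻ θ in Ioc (0 : ℝ) (2 * Real.pi),
        ∫⁻ t in F, M (t + circleMap 0 ρ θ • ζ) :=
      lintegral_lintegral_swap (f := fun (t : Cm q) (θ : ℝ) => M (t + circleMap 0 ρ θ • ζ))
        hmeas2.aemeasurable
    rw [h1]
    have h2 : ∀ θ : ℝ, ∫⁻ t in F, M (t + circleMap 0 ρ θ • ζ) = ∫⁻ t in F, M t := fun θ =>
      int_shift b hper _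
    simp only [h2]
    rw [lintegral_const, Measure.restrict_apply MeasurableSet.univ, univ_inter, Real.volume_Ioc,
      sub_zero, mul_comm]
  have heqF : ∀ᵐ t ∂(volume.restrict F), ENNReal.ofReal (2 * Real.pi) * M t = K t := by
    refine ae_eq_of_ae_le_of_lintegral_le (ae_restrict_of_ae hle) ?_ hKm.aemeasurable hint2.le
    rw [lintegral_const_mul _ hMm]
    exact ENNReal.mul_ne_top ENNReal.ofReal_ne_top hfin
  set B : Set (Cm q) := {t | ¬ ENNReal.ofReal (2 * Real.pi) * M t = K t} with hB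
  have hB0 : volume B = 0 := by
    refine hFf.measure_zero_of_invariant B (fun l => ?_) ?_
    · ext t
      rw [mem_vadd_set_iff_neg_vadd_mem]
      have h1 : -l +ᵥ t = (-(l : Cm q)) + t := rfl
      rw [h1]
      have hl := (Submodule.span ℤ (range b)).neg_mem l.2
      have h2 : K (-(l : Cm q) + t) = K t := by
        simp only [hK]
        refine lintegral_congr fun θ => ?_
        rw [add_assoc, hper _ hl]
      simp only [hB, Set.mem_ofPred_eq]
      rw [hper _ hl, h2]
    · have h1 : volume.restrict F B = 0 := heqF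
      rwa [Measure.restrict_apply₀' (ZSpan.fundamentalDomain_measurableSet b).nullMeasurableSet]
        at h1
  have hgood : ∀ᵐ t : Cm q, (∀ z : ℂ, t + z • ζ ∉ D) ∧
      Real.circleAverage (fun z => S (t + z • ζ)) 0 ρ = S t := by
    filter_upwards [hline, compl_mem_ae_iff.2 hB0] with t ht htB
    refine ⟨ht, ?_⟩
    have ht0 : t ∉ D := by simpa using ht 0
    have h1 : ENNReal.ofReal (2 * Real.pi) * M t = K t := not_not.1 htB
    rw [hKof t ht, hMof ht0, ← ENNReal.ofReal_mul Real.two_pi_pos.le] at h1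
    have h2 := gd_nonneg hG ht0
    have h3 := gd_submean hG ht hρ
    have h4 := (ENNReal.ofReal_eq_ofReal_iff (mul_nonneg Real.two_pi_pos.le h2)
      (mul_nonneg Real.two_pi_pos.le (h2.trans h3))).1 h1
    exact (mul_left_cancel₀ Real.two_pi_pos.ne' h4).symm
  -- at almost every point near `t₀` one of the germs is constant along `ζ`
  have hhalf : ball t₀ (ρ₀ / 2) ⊆ ball t₀ ρ₀ := ball_subset_ball (by linarith)
  have hder : ∀ t ∈ ball t₀ (ρ₀ / 2), (∀ z : ℂ, t + z • ζ ∉ D) →
      Real.circleAverage (fun z => S (t + z • ζ)) 0 ρ = S t →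
      ∃ j, fderiv ℂ (f j) t ζ = 0 := by
    intro t ht htD hav
    obtain ⟨j, hj⟩ := (hfS t (hhalf ht)).2
    refine ⟨j, ?_⟩
    have hmem : ∀ z ∈ closedBall (0 : ℂ) ρ, t + z • ζ ∈ ball t₀ ρ₀ := by
      intro z hz
      rw [mem_ball, dist_eq_norm] at ht ⊢
      rw [mem_closedBall_zero_iff] at hz
      have h1 : t + z • ζ - t₀ = (t - t₀) + z • ζ := by abel
      have h2 : ‖z • ζ‖ ≤ ρ * ‖ζ‖ := by rw [norm_smul]; gcongr
      rw [h1]
      linarith [norm_add_le (t - t₀) (z • ζ)]
    have hφd : DifferentiableOn ℂ (fun z : ℂ => f j (t + z • ζ)) (closedBall 0 ρ) := by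
      intro z hz
      have h2 := (hf j).differentiableAt (isOpen_ball.mem_nhds (hmem z hz))
      have h3 : DifferentiableAt ℂ (fun z : ℂ => t + z • ζ) z := by fun_prop
      exact (h2.comp z h3).differentiableWithinAt
    have hc : Continuous fun z : ℂ => S (t + z • ζ) := by
      rw [continuous_iff_continuousAt]
      intro z
      exact ContinuousAt.comp (g := S) (f := fun z : ℂ => t + z • ζ) (gd_cont hG (htD z))
        (by fun_prop)
    have h0 : f j (t + (0 : ℂ) • ζ) = f j t := by rw [zero_smul, add_zero]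
    have h1 : Real.circleAverage (fun z : ℂ => ‖f j (t + z • ζ)‖ ^ 2) 0 ρ ≤
        ‖f j (t + (0 : ℂ) • ζ)‖ ^ 2 := by
      rw [h0, ← hj, ← hav]
      refine Real.circleAverage_mono ?_ hc.continuousOn.circleIntegrable' fun z hz => ?_
      · refine ContinuousOn.circleIntegrable' ?_
        rw [abs_of_pos hρ]
        exact (hφd.continuousOn.mono sphere_subset_closedBall).norm.pow 2
      · rw [abs_of_pos hρ] at hz
        exact (hfS _ (hmem z (sphere_subset_closedBall hz))).1 j
    have h2 := const_of_avg hρ hφd h1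
    have h3 : HasDerivAt (fun z : ℂ => f j (t + z • ζ)) (fderiv ℂ (f j) t ζ) 0 := by
      have h4 : HasDerivAt (fun z : ℂ => t + z • ζ) ζ 0 := by
        simpa using ((hasDerivAt_id (0 : ℂ)).smul_const ζ).const_add t
      have h5 : HasFDerivAt (f j) (fderiv ℂ (f j) t) (t + (0 : ℂ) • ζ) := by
        rw [zero_smul, add_zero]
        exact ((hf j).differentiableAt (isOpen_ball.mem_nhds (hhalf ht))).hasFDerivAt
      exact h5.comp_hasDerivAt (0 : ℂ) h4
    have h4 : (fun z : ℂ => f j (t + z • ζ)) =ᶠ[𝓝 0] fun _ => f j (t + (0 : ℂ) • ζ) := by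
      filter_upwards [ball_mem_nhds (0 : ℂ) hρ] with z hz using h2 z hz
    exact h3.unique ((hasDerivAt_const (0 : ℂ) _).congr_of_eventuallyEq h4)
  let A : Fin k → Set (Cm q) := fun j => {t | t ∈ ball t₀ (ρ₀ / 2) ∧ fderiv ℂ (f j) t ζ = 0}
  have hfa : ∀ j, AnalyticOnNhd ℂ (f j) (ball t₀ ρ₀) := fun j =>
    Vale.Agent.P268.analyticOnNhd_of_differentiableOn isOpen_ball (hf j)
  have hAc : ∀ j, ∀ x ∈ closure (A j), x ∈ ball t₀ (ρ₀ / 2) → fderiv ℂ (f j) x ζ = 0 := by
    intro j x hx hxb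
    by_contra hne
    have h1 : ContinuousAt (fun x => fderiv ℂ (f j) x ζ) x :=
      ((ContinuousLinearMap.apply ℂ W ζ).continuous.continuousAt).comp
        (hfa j x (hhalf hxb)).fderiv.continuousAt
    obtain ⟨y, hy1, hy2⟩ := mem_closure_iff_nhds.1 hx _ (h1.eventually_ne hne)
    exact hy1 hy2.2
  obtain ⟨j, O, hO, ⟨x₀, hx₀⟩, hOC⟩ := open_cover Finset.univ (C := fun j => closure (A j))
    (fun j => isClosed_closure) (isOpen_ball (x := t₀) (ε := ρ₀ / 2))
    ⟨t₀, mem_ball_self (by linarith)⟩ (fun x hx => by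
      by_contra hcon
      push Not at hcon
      have h1 : IsOpen (ball t₀ (ρ₀ / 2) \ ⋃ j, closure (A j)) :=
        isOpen_ball.sdiff (isClosed_iUnion_of_finite fun j => isClosed_closure)
      have h2 : (ball t₀ (ρ₀ / 2) \ ⋃ j, closure (A j)).Nonempty :=
        ⟨x, hx, fun h3 => by
          obtain ⟨j, hj⟩ := mem_iUnion.1 h3
          exact hcon j (Finset.mem_univ j) hj⟩
      have h3 := h1.measure_pos volume h2
      have h4 : volume (ball t₀ (ρ₀ / 2) \ ⋃ j, closure (A j)) = 0 := by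
        refine measure_mono_null (fun t ht => ?_) (ae_iff.1 hgood)
        intro h5
        obtain ⟨j, hj⟩ := hder t ht.1 h5.1 h5.2
        exact ht.2 (mem_iUnion.2 ⟨j, subset_closure ⟨ht.1, hj⟩⟩)
      exact h3.ne' h4)
  have hx₀b := hhalf (hOC hx₀).1
  refine ⟨x₀, hbD hx₀b, f j, hf𝒢 j x₀ hx₀b, ?_⟩
  filter_upwards [hO.mem_nhds hx₀] with x hx
  exact hAc j x (hOC hx).2 (hOC hx).1

end Vale.Agent.P284.H136.Rat
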