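import Vale.Agent.P284.H10.S4d
import Vale.Agent.P284.H213.MF.Stab

/-!
# P284 (helper136), RAT: finite multivalued holomorphic functions

`R` is open in `ℂ^q`, the complement is thin, and `G t g` means that the germ of `g` at `t` is one of the
finitely many germs over `t`.  `mx t` is the maximum of the norms.
-/

open scoped Topology ContDiff ENNReal
open Set Metric Filter Module MeasureTheory

noncomputable section

namespace Vale.Agent.P284.H136.Rat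

open Vale.Agent.P272.K Vale.Agent.P284.H10

variable {q : ℕ} {W : Type} [NormedAddCommGroup W] [NormedSpace ℂ W]

/-- a finite multivalued holomorphic function on `R` -/
structure MV (R : Set (Cm q)) (G : Cm q → (Cm q → W) → Prop) : Prop where
  pos : 1 ≤ q
  opn : IsOpen R
  cov : Cov (q - 1) Rᶜ
  loc : ∀ t ∈ R, ∃ r > 0, ball t r ⊆ R ∧ ∃ (m : ℕ) (f : Fin m → Cm q → W), 0 < m ∧
    (∀ i, AnalyticOnNhd ℂ (f i) (ball t r)) ∧
    ∀ t' ∈ ball t r, ∀ g, G t' g ↔ ∃ i, g =ᶠ[𝓝 t'] f i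

/-- the maximum of the norms of the values -/
def mx (G : Cm q → (Cm q → W) → Prop) (t : Cm q) : ℝ := sSup {x | ∃ g, G t g ∧ ‖g t‖ = x}

/-- the germs over `t + v` are the translates of the germs over `t` -/
def PV (G : Cm q → (Cm q → W) → Prop) (v t : Cm q) : Prop :=
  ∀ g, G t g ↔ G (t + v) fun x => g (x - v)

/-- directions along which all germs are constant -/
def Nul (R : Set (Cm q)) (G : Cm q → (Cm q → W) → Prop) (v : Cm q) : Prop :=
  ∀ t ∈ R, ∀ g, G t g → ∀ᶠ x in 𝓝 t, fderiv ℂ g x v = 0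

section
variable {R : Set (Cm q)} {G : Cm q → (Cm q → W) → Prop}

theorem MV.set_eq (_ : MV R G) {t₀ : Cm q} {r : ℝ} {m : ℕ} {f : Fin m → Cm q → W}
    (hf : ∀ t' ∈ ball t₀ r, ∀ g, G t' g ↔ ∃ i, g =ᶠ[𝓝 t'] f i) {t : Cm q} (ht : t ∈ ball t₀ r) :
    {x | ∃ g, G t g ∧ ‖g t‖ = x} = range fun i => ‖f i t‖ := by
  ext x
  constructor
  · rintro ⟨g, hg, rfl⟩
    obtain ⟨i, hi⟩ := (hf t ht g).1 hg
    exact ⟨i, by rw [hi.self_of_nhds]⟩
  · rintro ⟨i, rfl⟩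
    exact ⟨f i, (hf t ht _).2 ⟨i, EventuallyEq.rfl⟩, rfl⟩

theorem MV.le_mx' (h : MV R G) {t₀ : Cm q} {r : ℝ} {m : ℕ} {f : Fin m → Cm q → W}
    (hf : ∀ t' ∈ ball t₀ r, ∀ g, G t' g ↔ ∃ i, g =ᶠ[𝓝 t'] f i) {t : Cm q} (ht : t ∈ ball t₀ r)
    (i : Fin m) : ‖f i t‖ ≤ mx G t := by
  unfold mx
  rw [h.set_eq hf ht]
  exact le_csSup (finite_range _).bddAbove ⟨i, rfl⟩

theorem MV.exists_mx' (h : MV R G) {t₀ : Cm q} {r : ℝ} {m : ℕ} (hm : 0 < m)
    {f : Fin m → Cm q → W}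
    (hf : ∀ t' ∈ ball t₀ r, ∀ g, G t' g ↔ ∃ i, g =ᶠ[𝓝 t'] f i) {t : Cm q} (ht : t ∈ ball t₀ r) :
    ∃ i, ‖f i t‖ = mx G t := by
  unfold mx
  rw [h.set_eq hf ht]
  have : Nonempty (Fin m) := ⟨⟨0, hm⟩⟩
  obtain ⟨i, hi⟩ := (range_nonempty fun i => ‖f i t‖).csSup_mem (finite_range _)
  exact ⟨i, hi⟩

theorem MV.le_mx (h : MV R G) {t : Cm q} (ht : t ∈ R) {g : Cm q → W} (hg : G t g) :
    ‖g t‖ ≤ mx G t := by
  obtain ⟨r, hr, -, m, f, -, -, hf⟩ := h.loc t ht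
  obtain ⟨i, hi⟩ := (hf t (mem_ball_self hr) g).1 hg
  rw [hi.self_of_nhds]
  exact h.le_mx' hf (mem_ball_self hr) i

theorem MV.exists_mx (h : MV R G) {t : Cm q} (ht : t ∈ R) : ∃ g, G t g ∧ ‖g t‖ = mx G t := by
  obtain ⟨r, hr, -, m, f, hm, -, hf⟩ := h.loc t ht
  obtain ⟨i, hi⟩ := h.exists_mx' hm hf (mem_ball_self hr)
  exact ⟨f i, (hf t (mem_ball_self hr) _).2 ⟨i, EventuallyEq.rfl⟩, hi⟩

theorem MV.mx_nonneg (h : MV R G) {t : Cm q} (ht : t ∈ R) : 0 ≤ mx G t := by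
  obtain ⟨g, -, hg⟩ := h.exists_mx ht
  rw [← hg]
  exact norm_nonneg _

theorem MV.mx_cont (h : MV R G) : ContinuousOn (mx G) R := by
  intro t ht
  obtain ⟨r, hr, -, m, f, hm, hfa, hf⟩ := h.loc t ht
  refine ContinuousAt.continuousWithinAt ?_
  have : Nonempty (Fin m) := ⟨⟨0, hm⟩⟩
  have h1 : ContinuousAt (fun t => Finset.univ.sup' Finset.univ_nonempty fun i => ‖f i t‖) t := by
    refine ContinuousAt.finset_sup'_apply _ fun i _ => ?_
    exact (hfa i t (mem_ball_self hr)).continuousAt.norm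
  refine h1.congr ?_
  filter_upwards [ball_mem_nhds t hr] with t' ht'
  refine le_antisymm ?_ ?_
  · exact Finset.sup'_le _ _ fun i _ => h.le_mx' hf ht' i
  · obtain ⟨i, hi⟩ := h.exists_mx' hm hf ht'
    rw [← hi]
    exact Finset.le_sup' (fun i => ‖f i t'‖) (Finset.mem_univ i)

theorem evt_shift {g f : Cm q → W} {t v : Cm q} :
    (fun x => g (x - v)) =ᶠ[𝓝 (t + v)] f ↔ g =ᶠ[𝓝 t] fun x => f (x + v) := by
  constructor
  · intro h
    have h1 : Tendsto (fun x => x + v) (𝓝 t) (𝓝 (t + v)) :=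
      (continuous_add_const v).tendsto t
    filter_upwards [h1.eventually h] with x hx
    rw [← hx, add_sub_cancel_right]
  · intro h
    have h1 : Tendsto (fun x => x - v) (𝓝 (t + v)) (𝓝 t) := by
      have := (continuous_sub_right v).tendsto (t + v)
      rwa [add_sub_cancel_right] at this
    filter_upwards [h1.eventually h] with x hx
    rw [hx, sub_add_cancel]

theorem eqOn_ball {f g : Cm q → W} {t₀ : Cm q} {r : ℝ} (hf : AnalyticOnNhd ℂ f (ball t₀ r))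
    (hg : AnalyticOnNhd ℂ g (ball t₀ r)) {t : Cm q} (ht : t ∈ ball t₀ r) (h : f =ᶠ[𝓝 t] g) :
    EqOn f g (ball t₀ r) :=
  hf.eqOn_of_preconnected_of_eventuallyEq hg (convex_ball t₀ r).isPreconnected ht h

theorem MV.pv_loc (h : MV R G) {v t₀ : Cm q} (ht : t₀ ∈ R) (ht' : t₀ + v ∈ R) :
    ∀ᶠ t in 𝓝 t₀, PV G v t ↔ PV G v t₀ := by
  obtain ⟨r, hr, -, m, f, hm, hfa, hf⟩ := h.loc t₀ ht
  obtain ⟨r', hr', -, m', f', hm', hfa', hf'⟩ := h.loc (t₀ + v) ht'
  set ρ := min r r' with hρ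
  have hρ0 : 0 < ρ := lt_min hr hr'
  have hb : ball t₀ ρ ⊆ ball t₀ r := ball_subset_ball (min_le_left _ _)
  have hb' : ∀ t ∈ ball t₀ ρ, t + v ∈ ball (t₀ + v) r' := by
    intro t ht
    rw [mem_ball, dist_eq_norm] at ht ⊢
    rw [add_sub_add_right_eq_sub]
    exact ht.trans_le (min_le_right _ _)
  have hfaρ : ∀ i, AnalyticOnNhd ℂ (f i) (ball t₀ ρ) := fun i x hx => hfa i x (hb hx)
  have hfaρ' : ∀ j, AnalyticOnNhd ℂ (fun x => f' j (x + v)) (ball t₀ ρ) := fun j x hx =>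
    (hfa' j _ (hb' x hx)).comp (f := fun x => x + v) (analyticAt_id.add analyticAt_const)
  have key : ∀ t ∈ ball t₀ ρ, PV G v t ↔
      (∀ i, ∃ j, EqOn (f i) (fun x => f' j (x + v)) (ball t₀ ρ)) ∧
      (∀ j, ∃ i, EqOn (fun x => f' j (x + v)) (f i) (ball t₀ ρ)) := by
    intro t ht
    constructor
    · intro hP
      refine ⟨fun i => ?_, fun j => ?_⟩
      · have h1 : G t (f i) := (hf t (hb ht) _).2 ⟨i, EventuallyEq.rfl⟩
        obtain ⟨j, hj⟩ := (hf' _ (hb' t ht) _).1 ((hP _).1 h1)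
        exact ⟨j, eqOn_ball (hfaρ i) (hfaρ' j) ht (evt_shift.1 hj)⟩
      · have h1 : G (t + v) (f' j) := (hf' _ (hb' t ht) _).2 ⟨j, EventuallyEq.rfl⟩
        have h2 : (fun x => (fun x => f' j (x + v)) (x - v)) = f' j := by
          funext x
          simp only [sub_add_cancel]
        obtain ⟨i, hi⟩ := (hf t (hb ht) _).1 ((hP fun x => f' j (x + v)).2 (by rw [h2]; exact h1))
        exact ⟨i, eqOn_ball (hfaρ' j) (hfaρ i) ht hi⟩
    · rintro ⟨hA, hB⟩ g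
      have hev : ∀ {g₁ g₂ : Cm q → W}, EqOn g₁ g₂ (ball t₀ ρ) → g₁ =ᶠ[𝓝 t] g₂ := fun he => by
        filter_upwards [isOpen_ball.mem_nhds ht] with x hx using he hx
      rw [hf t (hb ht), hf' _ (hb' t ht)]
      constructor
      · rintro ⟨i, hi⟩
        obtain ⟨j, hj⟩ := hA i
        exact ⟨j, evt_shift.2 (hi.trans (hev hj))⟩
      · rintro ⟨j, hj⟩
        obtain ⟨i, hi⟩ := hB j
        exact ⟨i, (evt_shift.1 hj).trans (hev hi)⟩
  filter_upwards [ball_mem_nhds t₀ hρ0] with t ht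
  rw [key t ht, key t₀ (mem_ball_self hρ0)]

theorem cov_shift {k : ℕ} {S : Set (Cm q)} (h : Cov k S) (v : Cm q) :
    Cov k {t | t + v ∈ S} := by
  have h1 := h.image (g := fun x => x - v) fun x _ => by fun_prop
  refine h1.mono fun t ht => ⟨t + v, ht, by simp⟩

theorem dim_ok (hq : 1 ≤ q) : q - 1 + 1 ≤ finrank ℂ (Cm q) := by
  rw [finrank_fin_fun]; omega

/-- the points which stay in `R` under two translations are dense -/
theorem MV.dense2 (h : MV R G) (v v' : Cm q) {O : Set (Cm q)} (hO : IsOpen O)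
    (hne : O.Nonempty) : ∃ t ∈ O, t ∈ R ∧ t + v ∈ R ∧ t + v' ∈ R := by
  have h1 : Cov (q - 1) (Rᶜ ∪ ({t | t + v ∈ Rᶜ} ∪ {t | t + v' ∈ Rᶜ})) :=
    h.cov.union ((cov_shift h.cov v).union (cov_shift h.cov v'))
  obtain ⟨t, htO, ht⟩ := nonempty_diff (h1.mono inter_subset_left) (dim_ok h.pos) hO hne
  rw [mem_union, mem_union, not_or, not_or] at ht
  exact ⟨t, htO, not_not.1 ht.1, not_not.1 ht.2.1, not_not.1 ht.2.2⟩

theorem MV.pv_all (h : MV R G) {v t₀ : Cm q} (ht₀ : t₀ ∈ R) (ht₀' : t₀ + v ∈ R)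
    (hP : PV G v t₀) {t : Cm q} (ht : t ∈ R) (ht' : t + v ∈ R) : PV G v t := by
  have h1 : Cov (q - 1) (Rᶜ ∪ {t | t + v ∈ Rᶜ}) := h.cov.union (cov_shift h.cov v)
  have hpre := preconn_diff (h1.mono inter_subset_left) (dim_ok h.pos) isOpen_univ convex_univ
  have hmem : ∀ x : Cm q, x ∈ univ \ (Rᶜ ∪ {t | t + v ∈ Rᶜ}) ↔ x ∈ R ∧ x + v ∈ R := by
    intro x
    rw [Set.mem_sdiff, mem_union, not_or, mem_compl_iff, not_not]
    refine ⟨fun hx => ⟨hx.2.1, not_not.1 hx.2.2⟩, fun hx => ⟨mem_univ _, hx.1, not_not.2 hx.2⟩⟩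
  by_contra hcon
  have hRv : IsOpen {x | x ∈ R ∧ x + v ∈ R} :=
    h.opn.inter (h.opn.preimage (continuous_add_const v))
  have hU : IsOpen {x | (x ∈ R ∧ x + v ∈ R) ∧ PV G v x} := by
    rw [isOpen_iff_mem_nhds]
    rintro x ⟨hx, hx2⟩
    filter_upwards [hRv.mem_nhds hx, h.pv_loc hx.1 hx.2] with z h1 h2 using ⟨h1, h2.2 hx2⟩
  have hV : IsOpen {x | (x ∈ R ∧ x + v ∈ R) ∧ ¬ PV G v x} := by
    rw [isOpen_iff_mem_nhds]
    rintro x ⟨hx, hx2⟩
    filter_upwards [hRv.mem_nhds hx, h.pv_loc hx.1 hx.2] with z h1 h2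
      using ⟨h1, fun h3 => hx2 (h2.1 h3)⟩
  obtain ⟨z, -, hz1, hz2⟩ := hpre _ _ hU hV (by
    intro z hz
    rw [hmem] at hz
    by_cases h3 : PV G v z
    · exact Or.inl ⟨hz, h3⟩
    · exact Or.inr ⟨hz, h3⟩) ⟨t₀, (hmem _).2 ⟨ht₀, ht₀'⟩, ⟨ht₀, ht₀'⟩, hP⟩
    ⟨t, (hmem _).2 ⟨ht, ht'⟩, ⟨ht, ht'⟩, hcon⟩
  exact hz2.2 hz1.2

theorem pv_add {v v' t : Cm q} (h : PV G v t) (h' : PV G v' (t + v)) : PV G (v + v') t := by
  intro g
  rw [h g, h' _, add_assoc]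
  have h1 : (fun x => g (x - v' - v)) = fun x => g (x - (v + v')) := by
    funext x
    congr 1
    abel
  rw [h1]

theorem const_seg' {f : Cm q → W} {t₀ : Cm q} {r : ℝ} (hf : AnalyticOnNhd ℂ f (ball t₀ r))
    {v : Cm q} (h0 : ∀ x ∈ ball t₀ r, fderiv ℂ f x v = 0) {x : Cm q} (hx : x ∈ ball t₀ r)
    (hxv : x + v ∈ ball t₀ r) : f (x + v) = f x := by
  have hseg : ∀ s ∈ Icc (0 : ℝ) 1, x + s • v ∈ ball t₀ r := by
    intro s hs
    have h3 := (convex_ball t₀ r) hx hxv (sub_nonneg.2 hs.2) hs.1 (by ring)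
    have h4 : (1 - s) • x + s • (x + v) = x + s • v := by
      rw [sub_smul, one_smul, smul_add]; abel
    rwa [h4] at h3
  have hder : ∀ s ∈ Icc (0 : ℝ) 1, HasDerivAt (fun s : ℝ => f (x + s • v)) (0 : W) s := by
    intro s hs
    have h1 : HasDerivAt (fun s : ℝ => x + s • v) v s := by
      simpa using ((hasDerivAt_id s).smul_const v).const_add x
    have h2 : HasFDerivAt f ((fderiv ℂ f (x + s • v)).restrictScalars ℝ) (x + s • v) :=
      (hf _ (hseg s hs)).differentiableAt.hasFDerivAt.restrictScalars ℝ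
    have h3 := h2.comp_hasDerivAt s h1
    have h4 : ((fderiv ℂ f (x + s • v)).restrictScalars ℝ) v = 0 := h0 _ (hseg s hs)
    rwa [h4] at h3
  have h1 := constant_of_has_deriv_right_zero (f := fun s : ℝ => f (x + s • v))
    (a := (0 : ℝ)) (b := 1) (fun s hs => (hder s hs).continuousAt.continuousWithinAt)
    (fun s hs => (hder s ⟨hs.1, hs.2.le⟩).hasDerivWithinAt) 1 ⟨zero_le_one, le_rfl⟩
  simpa using h1

theorem MV.pv_small (h : MV R G) {t₀ : Cm q} (ht₀ : t₀ ∈ R) :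
    ∃ ε > 0, ∀ v, ‖v‖ < ε → Nul R G v → t₀ + v ∈ R ∧ PV G v t₀ := by
  obtain ⟨r, hr, hrR, m, f, hm, hfa, hf⟩ := h.loc t₀ ht₀
  refine ⟨r, hr, fun v hv hN => ?_⟩
  have hvb : t₀ + v ∈ ball t₀ r := by
    rw [mem_ball, dist_eq_norm, add_sub_cancel_left]; exact hv
  refine ⟨hrR hvb, fun g => ?_⟩
  have h0 : ∀ i, ∀ x ∈ ball t₀ r, fderiv ℂ (f i) x v = 0 := fun i x hx =>
    (hN x (hrR hx) (f i) ((hf x hx _).2 ⟨i, EventuallyEq.rfl⟩)).self_of_nhds
  have h1 : ∀ i, f i =ᶠ[𝓝 t₀] fun x => f i (x + v) := by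
    intro i
    have h2 : Tendsto (fun x => x + v) (𝓝 t₀) (𝓝 (t₀ + v)) :=
      (continuous_add_const v).tendsto t₀
    filter_upwards [ball_mem_nhds t₀ hr, h2.eventually (isOpen_ball.mem_nhds hvb)] with x hx hxv
    exact (const_seg' (hfa i) (h0 i) hx hxv).symm
  rw [hf t₀ (mem_ball_self hr), hf _ hvb]
  constructor
  · rintro ⟨i, hi⟩
    exact ⟨i, evt_shift.2 (hi.trans (h1 i))⟩
  · rintro ⟨i, hi⟩
    exact ⟨i, (evt_shift.1 hi).trans (h1 i).symm⟩

theorem Nul.smul {v : Cm q} (h : Nul R G v) (c : ℂ) : Nul R G (c • v) := by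
  intro t ht g hg
  filter_upwards [h t ht g hg] with x hx
  rw [map_smul, hx, smul_zero]

theorem MV.nonempty (h : MV R G) : R.Nonempty := by
  obtain ⟨t, -, ht, -⟩ := h.dense2 0 0 isOpen_univ univ_nonempty
  exact ⟨t, ht⟩

/-- the germs over `t + v` are the translates of the germs over `t` if `v` is a null direction -/
theorem MV.pv_nul (h : MV R G) {v : Cm q} (hN : Nul R G v) {t : Cm q} (ht : t ∈ R)
    (ht' : t + v ∈ R) : PV G v t := by
  obtain ⟨t₀, ht₀⟩ := h.nonempty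
  obtain ⟨ε, hε, hs⟩ := h.pv_small ht₀
  obtain ⟨k, hk⟩ := exists_nat_gt (‖v‖ / ε)
  have hk0 : (0 : ℝ) < (k : ℝ) + 1 := by positivity
  set u : Cm q := (((k : ℝ) + 1)⁻¹ : ℝ) • v with hu
  have huN : Nul R G u := by
    have := hN.smul ((((k : ℝ) + 1)⁻¹ : ℝ) : ℂ)
    rwa [Complex.coe_smul] at this
  have hun : ‖u‖ < ε := by
    rw [hu, norm_smul, Real.norm_of_nonneg (by positivity), inv_mul_lt_iff₀ hk0]
    rw [div_lt_iff₀ hε] at hk
    nlinarith
  obtain ⟨h1, h2⟩ := hs u hun huN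
  have hall : ∀ x, x ∈ R → x + u ∈ R → PV G u x := fun x hx hx' => h.pv_all ht₀ h1 h2 hx hx'
  have hind : ∀ j : ℕ, ∀ x, x ∈ R → x + (j : ℝ) • u ∈ R → PV G ((j : ℝ) • u) x := by
    intro j
    induction j with
    | zero =>
      intro x _ _ g
      simp
    | succ j ih =>
      intro x hx hx'
      obtain ⟨x₀, -, ha, hb, hc⟩ := h.dense2 ((j : ℝ) • u) (((j + 1 : ℕ) : ℝ) • u) isOpen_univ
        univ_nonempty
      refine h.pv_all ha hc ?_ hx hx'
      have h3 : ((j + 1 : ℕ) : ℝ) • u = (j : ℝ) • u + u := by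
        push_cast
        rw [add_smul, one_smul]
      have h4 : x₀ + (j : ℝ) • u + u ∈ R := by
        rw [add_assoc, ← h3]; exact hc
      rw [h3]
      exact pv_add (ih _ ha hb) (hall _ hb h4)
  have h3 : ((k + 1 : ℕ) : ℝ) • u = v := by
    rw [hu, smul_smul]
    push_cast
    rw [mul_inv_cancel₀ hk0.ne', one_smul]
  have h4 := hind (k + 1) t ht (by rw [h3]; exact ht')
  rwa [h3] at h4

theorem mx_of_pv {v t : Cm q} (hP : PV G v t) : mx G (t + v) = mx G t := by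
  unfold mx
  congr 1
  ext x
  constructor
  · rintro ⟨g, hg, rfl⟩
    refine ⟨fun x => g (x + v), (hP _).2 ?_, rfl⟩
    have h2 : (fun x => (fun x => g (x + v)) (x - v)) = g := by
      funext x
      simp only [sub_add_cancel]
    rw [h2]
    exact hg
  · rintro ⟨g, hg, rfl⟩
    refine ⟨fun x => g (x - v), (hP _).1 hg, ?_⟩
    simp only [add_sub_cancel_right]

/-- the translations which leave `mx` invariant -/
def S₁ (h : MV R G) : AddSubgroup (Cm q) where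
  carrier := {w | ∀ t ∈ R, t + w ∈ R → mx G (t + w) = mx G t}
  zero_mem' t _ _ := by rw [add_zero]
  neg_mem' {w} hw t ht ht' := by
    have := hw (t + -w) ht' (by rwa [neg_add_cancel_right])
    rw [neg_add_cancel_right] at this
    exact this.symm
  add_mem' {w w'} hw hw' t ht ht' := by
    by_contra hne
    have h1 : IsOpen {x | x ∈ R ∧ x + (w + w') ∈ R} :=
      h.opn.inter (h.opn.preimage (continuous_add_const _))
    have h2 : ContinuousAt (fun x => mx G (x + (w + w')) - mx G x) t := by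
      refine ContinuousAt.sub ?_ (h.mx_cont.continuousAt (h.opn.mem_nhds ht))
      exact ContinuousAt.comp (g := mx G) (f := fun x => x + (w + w'))
        (h.mx_cont.continuousAt (h.opn.mem_nhds ht')) (by fun_prop)
    have h3 : ∀ᶠ x in 𝓝 t, mx G (x + (w + w')) - mx G x ≠ 0 :=
      h2.eventually_ne (sub_ne_zero.2 hne)
    have h4 := h3.and (h1.mem_nhds ⟨ht, ht'⟩)
    obtain ⟨O, hO, hOo, htO⟩ := _root_.eventually_nhds_iff.1 h4
    obtain ⟨x, hx, hx1, hx2, hx3⟩ := h.dense2 w (w + w') hOo ⟨t, htO⟩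
    obtain ⟨h5, h6⟩ := hO x hx
    apply h5
    rw [← add_assoc, hw' _ hx2 (by rw [add_assoc]; exact hx3), hw x hx1 hx2, sub_self]

theorem mem_S₁ {h : MV R G} {w : Cm q} :
    w ∈ S₁ h ↔ ∀ t ∈ R, t + w ∈ R → mx G (t + w) = mx G t := Iff.rfl

theorem isClosed_S₁ (h : MV R G) : IsClosed (S₁ h : Set (Cm q)) := by
  rw [← isOpen_compl_iff, isOpen_iff_mem_nhds]
  intro w hw
  rw [mem_compl_iff, SetLike.mem_coe, mem_S₁] at hw
  push Not at hw
  obtain ⟨t, ht, ht', hne⟩ := hw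
  have h1 : ContinuousAt (fun w => mx G (t + w)) w :=
    ContinuousAt.comp (g := mx G) (f := fun w => t + w)
      (h.mx_cont.continuousAt (h.opn.mem_nhds ht')) (by fun_prop)
  have h2 : ∀ᶠ w' in 𝓝 w, t + w' ∈ R :=
    (continuous_const_add t).continuousAt.eventually (h.opn.mem_nhds ht')
  filter_upwards [h1.eventually_ne hne, h2] with w' h3 h4
  exact fun h5 => h3 (mem_S₁.1 h5 t ht h4)

theorem nul_mem {h : MV R G} {v : Cm q} (hv : Nul R G v) : v ∈ S₁ h := fun t ht ht' =>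
  mx_of_pv (h.pv_nul hv ht ht')

end

end Vale.Agent.P284.H136.Rat
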