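import Vale.Agent.P284.H136.Rat1

/-!
# P284 (helper136), RAT: the translations which leave the maximum of the norms invariant
-/

open scoped Topology ContDiff ENNReal Pointwise
open Set Metric Filter Module MeasureTheory

noncomputable section

namespace Vale.Agent.P284.H136.Rat

open Vale.Agent.P272.K Vale.Agent.P284.H10 Vale.Agent.P284.H213.MF

section
variable {q : ℕ} {W : Type} [NormedAddCommGroup W] [NormedSpace ℂ W]
  {R : Set (Cm q)} {G : Cm q → (Cm q → W) → Prop}

theorem split_z (t a : Cm q) (z : ℂ) :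
    t + z • a = t + z.im • (Complex.I • a) + z.re • a := by
  rw [← Complex.coe_smul z.im, ← Complex.coe_smul z.re, smul_smul, add_assoc, ← add_smul]
  congr 2
  conv_lhs => rw [← Complex.re_add_im z]
  ring

theorem MV.mx_z (h : MV R G) {a : Cm q} (ha : a ∈ lin (S₁ h)) {t : Cm q} {z : ℂ}
    (h1 : t + z.im • (Complex.I • a) ∈ R) (h2 : t + z • a ∈ R) :
    mx G (t + z • a) = mx G (t + z.im • (Complex.I • a)) := by
  rw [split_z] at h2 ⊢
  exact mem_S₁.1 (mem_lin.1 ha z.re) _ h1 h2

/-- maximum principle on a vertical segment -/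
theorem MV.max_seg (h : MV R G) {a t : Cm q} (ha : a ∈ lin (S₁ h))
    (ht : ∀ y : ℝ, t + y • (Complex.I • a) ∈ R) {s : ℝ} (hs : 0 < s) (β : ℝ) :
    mx G t ≤ max (mx G (t + (-s) • (Complex.I • a)) * Real.exp (β * s))
      (mx G (t + s • (Complex.I • a)) * Real.exp (-(β * s))) := by
  set φ : ℝ → ℝ := fun y => mx G (t + y • (Complex.I • a)) * Real.exp (-(β * y)) with hφ
  have hline : Continuous fun y : ℝ => t + y • (Complex.I • a) := by fun_prop
  have hφc : Continuous φ := by
    refine Continuous.mul ?_ (by fun_prop)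
    rw [continuous_iff_continuousAt]
    intro y
    exact ContinuousAt.comp (g := mx G) (h.mx_cont.continuousAt (h.opn.mem_nhds (ht y)))
      hline.continuousAt
  have h0 : φ 0 = mx G t := by simp [hφ]
  have hns : φ (-s) = mx G (t + (-s) • (Complex.I • a)) * Real.exp (β * s) := by
    simp only [hφ]
    congr 2
    ring
  rw [← h0, ← hns]
  change φ 0 ≤ max (φ (-s)) (φ s)
  -- the maximum
  have hcI : IsCompact (Icc (-s) s) := isCompact_Icc
  obtain ⟨y₀, hy₀, hmax⟩ := hcI.exists_isMaxOn ⟨0, by constructor <;> linarith⟩ hφc.continuousOn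
  set T : Set ℝ := Icc (-s) s ∩ φ ⁻¹' {φ y₀} with hT
  have hTc : IsCompact T := hcI.inter_right (isClosed_singleton.preimage hφc)
  obtain ⟨y, hyT, hyl⟩ := hTc.exists_isLeast ⟨y₀, hy₀, rfl⟩
  have hym : φ y = φ y₀ := hyT.2
  have h0m : φ 0 ≤ φ y := by
    rw [hym]
    exact hmax (by constructor <;> linarith)
  rcases eq_or_lt_of_le hyT.1.1 with h1 | h1
  · rw [h1]; exact h0m.trans (le_max_left _ _)
  rcases eq_or_lt_of_le hyT.1.2 with h2 | h2
  · rw [← h2]; exact h0m.trans (le_max_right _ _)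
  exfalso
  set b := t + y • (Complex.I • a) with hb
  obtain ⟨r, hr, hrR, m, f, hm, hfa, hf⟩ := h.loc b (ht y)
  obtain ⟨i, hi⟩ := h.exists_mx' hm hf (mem_ball_self hr)
  set ψ : ℂ → W := fun z => Complex.exp (Complex.I * β * z) • f i (b + z • a) with hψ
  have hexp : ∀ z : ℂ, ‖Complex.exp (Complex.I * β * z)‖ = Real.exp (-(β * z.im)) := by
    intro z
    rw [Complex.norm_exp]
    congr 1
    simp [Complex.mul_re, Complex.mul_im]
  have hbz : ∀ᶠ z : ℂ in 𝓝 0, b + z • a ∈ ball b r := by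
    have : Tendsto (fun z : ℂ => b + z • a) (𝓝 0) (𝓝 b) := by
      have h3 : Continuous fun z : ℂ => b + z • a := by fun_prop
      simpa using h3.tendsto 0
    exact this.eventually (ball_mem_nhds b hr)
  have him : ∀ᶠ z : ℂ in 𝓝 0, y + z.im ∈ Icc (-s) s := by
    have : Tendsto (fun z : ℂ => y + z.im) (𝓝 0) (𝓝 y) := by
      have h3 : Continuous fun z : ℂ => y + z.im := by fun_prop
      simpa using h3.tendsto 0
    exact this.eventually (Icc_mem_nhds h1 h2)
  have hle : ∀ᶠ z : ℂ in 𝓝 0, ‖ψ z‖ ≤ φ (y + z.im) * Real.exp (β * y) := by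
    filter_upwards [hbz] with z hz
    have h3 : b + z.im • (Complex.I • a) = t + (y + z.im) • (Complex.I • a) := by
      rw [hb, add_smul, add_assoc]
    have h4 : mx G (b + z • a) = mx G (t + (y + z.im) • (Complex.I • a)) := by
      rw [← h3]
      exact h.mx_z ha (by rw [h3]; exact ht _) (hrR hz)
    rw [hψ]
    simp only
    rw [norm_smul, hexp]
    have h5 := h.le_mx' hf hz i
    rw [h4] at h5
    calc Real.exp (-(β * z.im)) * ‖f i (b + z • a)‖
        ≤ Real.exp (-(β * z.im)) * mx G (t + (y + z.im) • (Complex.I • a)) := by gcongr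
      _ = φ (y + z.im) * Real.exp (β * y) := by
        simp only [hφ]
        have h6 : Real.exp (-(β * z.im)) = Real.exp (-(β * (y + z.im))) * Real.exp (β * y) := by
          rw [← Real.exp_add]
          congr 1
          ring
        rw [h6]
        ring
  have hψ0 : ‖ψ 0‖ = φ y * Real.exp (β * y) := by
    rw [hψ]
    simp only
    rw [norm_smul, hexp]
    simp only [Complex.zero_im, mul_zero, neg_zero, Real.exp_zero, one_mul, zero_smul, add_zero]
    rw [hi]
    simp only [hφ]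
    rw [mul_assoc, ← Real.exp_add]
    simp [hb]
  have hlm : IsLocalMax (norm ∘ ψ) 0 := by
    filter_upwards [hle, him] with z h3 h4
    show ‖ψ z‖ ≤ ‖ψ 0‖
    rw [hψ0]
    refine h3.trans ?_
    have h5 : φ (y + z.im) ≤ φ y := by
      rw [hym]; exact hmax h4
    gcongr
  have hd : ∀ᶠ z : ℂ in 𝓝 0, DifferentiableAt ℂ ψ z := by
    filter_upwards [hbz] with z hz
    have h3 : DifferentiableAt ℂ (fun z : ℂ => f i (b + z • a)) z :=
      ((hfa i _ hz).differentiableAt).comp z (f := fun z : ℂ => b + z • a) (by fun_prop)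
    exact DifferentiableAt.smul (by fun_prop) h3
  have hev := Complex.norm_eventually_eq_of_isLocalMax hd hlm
  -- move to the left
  have hall := (hev.and hle).and him
  obtain ⟨ε, hε, hball⟩ := Metric.eventually_nhds_iff_ball.1 hall
  set z : ℂ := ((-(ε / 2) : ℝ) : ℂ) * Complex.I with hz
  have hzim : z.im = -(ε / 2) := by
    rw [hz, Complex.im_ofReal_mul, Complex.I_im, mul_one]
  have hzb : z ∈ ball (0 : ℂ) ε := by
    rw [mem_ball_zero_iff, hz, norm_mul, Complex.norm_I, mul_one, Complex.norm_real,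
      Real.norm_eq_abs, abs_neg, abs_of_pos (by linarith)]
    linarith
  obtain ⟨⟨h3, h4⟩, h5⟩ := hball z hzb
  rw [h3, hψ0] at h4
  have h6 : φ y ≤ φ (y + z.im) := le_of_mul_le_mul_right h4 (Real.exp_pos _)
  have h7 : φ (y + z.im) = φ y₀ := le_antisymm (hmax h5) (by rw [← hym]; exact h6)
  have h8 := hyl ⟨h5, h7⟩
  rw [hzim] at h8
  linarith

theorem MV.mid (h : MV R G) {a t : Cm q} (ha : a ∈ lin (S₁ h))
    (ht : ∀ y : ℝ, t + y • (Complex.I • a) ∈ R) {s : ℝ} (hs : 0 < s) :
    2 * mx G t ≤ mx G (t + s • (Complex.I • a)) + mx G (t + (-s) • (Complex.I • a)) := by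
  set A := mx G (t + (-s) • (Complex.I • a)) with hA
  set B := mx G (t + s • (Complex.I • a)) with hB
  have hA0 : 0 ≤ A := h.mx_nonneg (ht _)
  have hB0 : 0 ≤ B := h.mx_nonneg (ht _)
  refine le_of_forall_pos_le_add fun δ hδ => ?_
  set A' := A + δ / 2 with hA'
  set B' := B + δ / 2 with hB'
  have hA'0 : 0 < A' := by positivity
  have hB'0 : 0 < B' := by positivity
  have hsA : 0 < Real.sqrt A' := Real.sqrt_pos.2 hA'0
  have hsB : 0 < Real.sqrt B' := Real.sqrt_pos.2 hB'0
  set x := Real.sqrt B' / Real.sqrt A' with hx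
  have hx0 : 0 < x := div_pos hsB hsA
  have h1 := h.max_seg ha ht hs (Real.log x / s)
  rw [div_mul_cancel₀ _ hs.ne', Real.exp_log hx0, Real.exp_neg, Real.exp_log hx0] at h1
  have h2 : A * x ≤ Real.sqrt A' * Real.sqrt B' := by
    have h3 : A' * x = Real.sqrt A' * Real.sqrt B' := by
      rw [hx]
      nth_rewrite 1 [← Real.mul_self_sqrt hA'0.le]
      field_simp
    rw [← h3]
    gcongr
    linarith
  have h3 : B * x⁻¹ ≤ Real.sqrt A' * Real.sqrt B' := by
    have h3 : B' * x⁻¹ = Real.sqrt A' * Real.sqrt B' := by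
      rw [hx]
      nth_rewrite 1 [← Real.mul_self_sqrt hB'0.le]
      field_simp
    rw [← h3]
    gcongr
    linarith
  have h4 := h1.trans (max_le h2 h3)
  have h5 : 2 * (Real.sqrt A' * Real.sqrt B') ≤ A' + B' := by
    nlinarith [sq_nonneg (Real.sqrt A' - Real.sqrt B'), Real.mul_self_sqrt hA'0.le,
      Real.mul_self_sqrt hB'0.le]
  linarith

theorem MV.null_line (h : MV R G) (v : Cm q) : volume {t : Cm q | ∃ y : ℝ, t + y • v ∉ R} = 0 := by
  obtain ⟨Γ, T, h1, h2⟩ := h.cov
  have h4 : {t : Cm q | ∃ y : ℝ, t + y • v ∉ R} ⊆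
      ⋃ i, (fun p : (Fin (q - 1) → ℂ) × ℝ => Γ i p.1 - p.2 • v) '' {p | p.1 ∈ T i} := by
    rintro t ⟨y, hy⟩
    obtain ⟨i, x, hx, hxt⟩ := mem_iUnion.1 (h2 hy)
    refine mem_iUnion.2 ⟨i, (x, y), hx, ?_⟩
    simp only
    rw [hxt, add_sub_cancel_right]
  refine measure_mono_null h4 (measure_iUnion_null fun i => ?_)
  have h3 : finrank ℝ ((Fin (q - 1) → ℂ) × ℝ) < finrank ℝ (Cm q) := by
    have := h.pos
    rw [finrank_prod, finrank_real_of_complex, finrank_real_of_complex]
    simp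
    omega
  refine Vale.Agent.P231.H649.sard_ker volume h3.le (fun p hp => ?_) (fun x hx => Or.inl h3)
  have h5 : DifferentiableAt ℝ (fun p : (Fin (q - 1) → ℂ) × ℝ => Γ i p.1) p :=
    ((h1 i p.1 hp).restrictScalars ℝ).comp p differentiableAt_fst
  have h6 : DifferentiableAt ℝ (fun p : (Fin (q - 1) → ℂ) × ℝ => p.2) p := differentiableAt_snd
  exact h5.sub (h6.smul (differentiableAt_const v))

theorem seq_const {m : ℤ → ℝ} (h : ∀ k, 2 * m k = m (k + 1) + m (k - 1)) (h0 : ∀ k, 0 ≤ m k) :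
    m 1 = m 0 := by
  have hk : ∀ k : ℕ, m k = m 0 + k * (m 1 - m 0) ∧ m (k + 1) = m 0 + (k + 1) * (m 1 - m 0) := by
    intro k
    induction k with
    | zero => simp
    | succ k ih =>
      refine ⟨by push_cast; rw [ih.2], ?_⟩
      have h1 := h (k + 1)
      rw [add_sub_cancel_right, ih.1, ih.2] at h1
      push_cast
      linarith
  have hk' : ∀ k : ℕ, m (-k) = m 0 - k * (m 1 - m 0) ∧
      m (-k + 1) = m 0 - (k - 1) * (m 1 - m 0) := by
    intro k
    induction k with
    | zero => simp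
    | succ k ih =>
      have h1 := h (-k)
      have h2 : (-(k : ℤ) - 1) = -((k + 1 : ℕ) : ℤ) := by push_cast; ring
      rw [h2, ih.1, ih.2] at h1
      have h3 : (-((k + 1 : ℕ) : ℤ) + 1) = -(k : ℤ) := by push_cast; ring
      refine ⟨?_, ?_⟩
      · push_cast at h1 ⊢
        linarith
      · rw [h3, ih.1]
        push_cast
        ring
  by_contra hne
  obtain ⟨k, hk1⟩ := exists_nat_gt (m 0 / |m 1 - m 0|)
  have hd : 0 < |m 1 - m 0| := abs_pos.2 (sub_ne_zero.2 hne)
  rw [div_lt_iff₀ hd] at hk1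
  rcases abs_cases (m 1 - m 0) with ⟨h1, -⟩ | ⟨h1, -⟩
  · have h2 := h0 (-k)
    rw [(hk' k).1] at h2
    rw [h1] at hk1
    linarith
  · have h2 := h0 k
    rw [(hk k).1] at h2
    rw [h1] at hk1
    linarith

end

end Vale.Agent.P284.H136.Rat
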