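import Vale.Agent.P284.H136.Rat2
import Mathlib.Analysis.InnerProductSpace.Convex

/-!
# P284 (helper136), RAT: integration over the torus
-/

open scoped Topology ContDiff ENNReal Pointwise
open Set Metric Filter Module MeasureTheory

noncomputable section

namespace Vale.Agent.P284.H136.Rat

open Vale.Agent.P272.K Vale.Agent.P284.H10 Vale.Agent.P284.H213.MF

section
variable {q : ℕ} {W : Type} [NormedAddCommGroup W] [NormedSpace ℂ W]
  {R : Set (Cm q)} {G : Cm q → (Cm q → W) → Prop}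

/-- the maximum of the norms as an extended function, `0` outside `R` -/
def MM (R : Set (Cm q)) (G : Cm q → (Cm q → W) → Prop) (t : Cm q) : ℝ≥0∞ :=
  R.indicator (fun t => ENNReal.ofReal (mx G t)) t

theorem MM_of {t : Cm q} (ht : t ∈ R) : MM R G t = ENNReal.ofReal (mx G t) :=
  indicator_of_mem ht _

theorem MV.meas (h : MV R G) : Measurable (MM R G) := by
  classical
  have h1 : ContinuousOn (fun t => ENNReal.ofReal (mx G t)) R :=
    ENNReal.continuous_ofReal.comp_continuousOn h.mx_cont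
  have h2 := h1.measurable_piecewise (g := fun _ => 0) continuousOn_const h.opn.measurableSet
  exact h2

/-- integrals of periodic functions over translates of a fundamental domain -/
theorem int_shift {ι : Type} [Finite ι] (b : Basis ι ℝ (Cm q)) {f : Cm q → ℝ≥0∞}
    (hf : ∀ l ∈ Submodule.span ℤ (range b), ∀ t, f (l + t) = f t) (v : Cm q) :
    ∫⁻ t in ZSpan.fundamentalDomain b, f (t + v) = ∫⁻ t in ZSpan.fundamentalDomain b, f t := by
  have hD := ZSpan.isAddFundamentalDomain' b (volume : Measure (Cm q))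
  have : Countable (Submodule.span ℤ (range b)).toAddSubgroup := by
    change Countable (Submodule.span ℤ (range b))
    infer_instance
  have hDv := hD.vadd_of_comm v
  have h1 := hD.setLIntegral_eq hDv f (fun l t => hf l l.2 t)
  rw [h1]
  have h2 := (measurePreserving_add_left (volume : Measure (Cm q)) v).setLIntegral_comp_emb
    (measurableEmbedding_addLeft v) f (ZSpan.fundamentalDomain b)
  have h3 : (fun x => v + x) '' ZSpan.fundamentalDomain b = v +ᵥ ZSpan.fundamentalDomain b := rfl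
  rw [h3] at h2
  rw [← h2]
  refine lintegral_congr fun t => ?_
  rw [add_comm]

theorem MV.I_mem (h : MV R G) {Λ : AddSubgroup (Cm q)} (hΛR : ∀ l ∈ Λ, ∀ t ∈ R, t + l ∈ R)
    (hΛS : Λ ≤ S₁ h) (hspan : Submodule.span ℝ (Λ : Set (Cm q)) = ⊤)
    (hint : ∃ s : Cm q → ℝ≥0∞, (∀ ρ : ℝ, ∫⁻ t in ball (0 : Cm q) ρ, s t < ⊤) ∧
      ∀ t ∈ R, ∀ g, G t g → ENNReal.ofReal (‖g t‖ ^ 2) ≤ s t)
    {a : Cm q} (ha : a ∈ lin (S₁ h)) {s : ℝ} (hs : 0 < s) : s • (Complex.I • a) ∈ S₁ h := by
  set w : Cm q := s • (Complex.I • a) with hw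
  -- the lattice
  have hb0 : (⊤ : Submodule ℝ (Cm q)) ≤ Submodule.span ℝ (Λ : Set (Cm q)) := hspan.ge
  let b := Basis.ofSpan hb0
  have hbΛ : range b ⊆ (Λ : Set (Cm q)) := Basis.ofSpan_subset hb0
  have : Finite ↥((linearIndepOn_empty ℝ (id : Cm q → Cm q)).extend
      (empty_subset (Λ : Set (Cm q)))) := Module.Finite.finite_basis b
  have hL : ∀ l ∈ Submodule.span ℤ (range b), l ∈ Λ := by
    intro l hl
    have h1 : Submodule.span ℤ (range b) ≤ AddSubgroup.toIntSubmodule Λ :=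
      Submodule.span_le.2 hbΛ
    exact h1 hl
  have hiff : ∀ l ∈ Λ, ∀ t, l + t ∈ R ↔ t ∈ R := by
    intro l hl t
    constructor
    · intro h1
      have h2 := hΛR _ (Λ.neg_mem hl) _ h1
      rwa [add_comm l, add_neg_cancel_right] at h2
    · intro h1
      rw [add_comm]
      exact hΛR l hl t h1
  have hmxΛ : ∀ l ∈ Λ, ∀ t ∈ R, mx G (l + t) = mx G t := by
    intro l hl t ht
    rw [add_comm]
    exact mem_S₁.1 (hΛS hl) t ht (hΛR l hl t ht)
  have hper : ∀ l ∈ Submodule.span ℤ (range b), ∀ t, MM R G (l + t) = MM R G t := by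
    intro l hl t
    by_cases ht : t ∈ R
    · rw [MM_of ht, MM_of ((hiff l (hL l hl) t).2 ht), hmxΛ l (hL l hl) t ht]
    · have ht' : l + t ∉ R := fun h1 => ht ((hiff l (hL l hl) t).1 h1)
      unfold MM
      rw [indicator_of_notMem ht, indicator_of_notMem ht']
  set D := ZSpan.fundamentalDomain b with hD
  have hDf := ZSpan.isAddFundamentalDomain' b (volume : Measure (Cm q))
  have : Countable (Submodule.span ℤ (range b)).toAddSubgroup := by
    change Countable (Submodule.span ℤ (range b))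
    infer_instance
  -- finiteness
  have hfin : ∫⁻ t in D, MM R G t ≠ ⊤ := by
    obtain ⟨S, hS1, hS2⟩ := hint
    obtain ⟨ρ, hρ⟩ := (ZSpan.fundamentalDomain_isBounded b).subset_ball (0 : Cm q)
    have h1 : ∀ t, MM R G t ≤ 1 + S t := by
      intro t
      by_cases ht : t ∈ R
      · obtain ⟨g, hg, hgt⟩ := h.exists_mx ht
        rw [MM_of ht, ← hgt]
        calc ENNReal.ofReal ‖g t‖ ≤ ENNReal.ofReal (1 + ‖g t‖ ^ 2) :=
              ENNReal.ofReal_le_ofReal (by nlinarith [sq_nonneg (‖g t‖ - 1 / 2)])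
          _ = 1 + ENNReal.ofReal (‖g t‖ ^ 2) := by
              rw [ENNReal.ofReal_add zero_le_one (by positivity), ENNReal.ofReal_one]
          _ ≤ 1 + S t := by gcongr; exact hS2 t ht g hg
      · unfold MM
        rw [indicator_of_notMem ht]
        exact zero_le
    refine ne_top_of_le_ne_top ?_ ((lintegral_mono_set hρ).trans (lintegral_mono h1))
    rw [lintegral_add_left measurable_const]
    refine ENNReal.add_ne_top.2 ⟨?_, (hS1 ρ).ne⟩
    rw [setLIntegral_const, one_mul]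
    exact measure_ball_lt_top.ne
  -- the inequality
  have hZ := h.null_line (Complex.I • a)
  have hmid : ∀ v : Cm q, ∀ᵐ t ∂(volume.restrict D),
      2 * MM R G (t + v) = MM R G (t + v + w) + MM R G (t + v + -w) := by
    intro v
    have hZv : ∀ᵐ t : Cm q, ∀ y : ℝ, t + v + y • (Complex.I • a) ∈ R := by
      have h1 : volume ((fun t : Cm q => t + v) ⁻¹'
          {t : Cm q | ∃ y : ℝ, t + y • (Complex.I • a) ∉ R}) = 0 := by
        rw [measure_preimage_add_right]
        exact hZ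
      filter_upwards [compl_mem_ae_iff.2 h1] with t ht y
      by_contra h2
      exact ht ⟨y, h2⟩
    have hle : (fun t => 2 * MM R G (t + v)) ≤ᵐ[volume.restrict D]
        fun t => MM R G (t + v + w) + MM R G (t + v + -w) := by
      filter_upwards [ae_restrict_of_ae hZv] with t ht
      have h0 : t + v ∈ R := by simpa using ht 0
      have h1 : t + v + w ∈ R := ht s
      have h2 : t + v + -w ∈ R := by
        have := ht (-s)
        rwa [neg_smul] at this
      have h3 := h.mid ha ht hs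
      rw [neg_smul, ← hw] at h3
      rw [MM_of h0, MM_of h1, MM_of h2, ← ENNReal.ofReal_add (h.mx_nonneg h1) (h.mx_nonneg h2)]
      have h4 : (2 : ℝ≥0∞) = ENNReal.ofReal 2 := by simp
      rw [h4, ← ENNReal.ofReal_mul zero_le_two]
      exact ENNReal.ofReal_le_ofReal h3
    have hm : ∀ v : Cm q, Measurable fun t => MM R G (t + v) := fun v =>
      h.meas.comp (measurable_add_const v)
    refine ae_eq_of_ae_le_of_lintegral_le hle ?_ ?_ ?_
    · rw [lintegral_const_mul _ (hm v), int_shift b hper]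
      exact ENNReal.mul_ne_top (by simp) hfin
    · simp only [add_assoc]
      exact ((hm _).add (hm _)).aemeasurable
    · simp only [add_assoc]
      rw [lintegral_add_left (hm _), lintegral_const_mul _ (hm v), int_shift b hper,
        int_shift b hper, int_shift b hper, two_mul]
  -- all translates at once
  have hall : ∀ᵐ t ∂(volume.restrict D), t ∈ R → t + w ∈ R → mx G (t + w) = mx G t := by
    have h1 : ∀ᵐ t ∂(volume.restrict D), ∀ k : ℤ, 2 * MM R G (t + (k : ℝ) • w) =
        MM R G (t + (k : ℝ) • w + w) + MM R G (t + (k : ℝ) • w + -w) :=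
      ae_all_iff.2 fun k => hmid _
    have hZ0 : ∀ᵐ t : Cm q, ∀ y : ℝ, t + y • (Complex.I • a) ∈ R := by
      filter_upwards [compl_mem_ae_iff.2 hZ] with t ht y
      by_contra h2
      exact ht ⟨y, h2⟩
    filter_upwards [h1, ae_restrict_of_ae hZ0] with t ht hR _ _
    have hRk : ∀ k : ℤ, t + (k : ℝ) • w ∈ R := by
      intro k
      rw [hw, smul_smul]
      exact hR _
    have h2 := seq_const (m := fun k : ℤ => mx G (t + (k : ℝ) • w)) (fun k => ?_)
      (fun k => h.mx_nonneg (hRk k))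
    · simpa using h2
    · have h3 := ht k
      have h4 : t + (k : ℝ) • w + w = t + ((k + 1 : ℤ) : ℝ) • w := by
        push_cast
        rw [add_smul, one_smul, add_assoc]
      have h5 : t + (k : ℝ) • w + -w = t + ((k - 1 : ℤ) : ℝ) • w := by
        push_cast
        rw [sub_smul, one_smul, add_assoc, sub_eq_add_neg]
      rw [h4, h5, MM_of (hRk _), MM_of (hRk _), MM_of (hRk _),
        ← ENNReal.ofReal_add (h.mx_nonneg (hRk _)) (h.mx_nonneg (hRk _))] at h3
      have h6 : (2 : ℝ≥0∞) = ENNReal.ofReal 2 := by simp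
      rw [h6, ← ENNReal.ofReal_mul zero_le_two] at h3
      have h7 := (ENNReal.ofReal_eq_ofReal_iff
        (mul_nonneg zero_le_two (h.mx_nonneg (hRk _)))
        (add_nonneg (h.mx_nonneg (hRk _)) (h.mx_nonneg (hRk _)))).1 h3
      exact h7
  -- the exceptional set is open, periodic and null in the fundamental domain
  set B : Set (Cm q) := {t | (t ∈ R ∧ t + w ∈ R) ∧ mx G (t + w) - mx G t ≠ 0} with hB
  have hBo : IsOpen B := by
    rw [isOpen_iff_mem_nhds]
    rintro t ⟨ht, hne⟩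
    have h2 : ContinuousAt (fun x => mx G (x + w) - mx G x) t := by
      refine ContinuousAt.sub ?_ (h.mx_cont.continuousAt (h.opn.mem_nhds ht.1))
      exact ContinuousAt.comp (g := mx G) (f := fun x => x + w)
        (h.mx_cont.continuousAt (h.opn.mem_nhds ht.2)) (by fun_prop)
    have h3 : IsOpen {x | x ∈ R ∧ x + w ∈ R} :=
      h.opn.inter (h.opn.preimage (continuous_add_const _))
    filter_upwards [h2.eventually_ne hne, h3.mem_nhds ht] with x h4 h5 using ⟨h5, h4⟩
  have hBΛ : ∀ l ∈ Λ, ∀ t, l + t ∈ B ↔ t ∈ B := by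
    intro l hl t
    have h1 : ∀ x, x ∈ R → mx G (l + x) = mx G x := fun x hx => hmxΛ l hl x hx
    have h2 : l + t + w = l + (t + w) := add_assoc _ _ _
    simp only [hB, Set.mem_ofPred_eq]
    rw [h2, hiff l hl, hiff l hl]
    constructor
    · rintro ⟨h3, h4⟩
      rw [h1 _ h3.1, h1 _ h3.2] at h4
      exact ⟨h3, h4⟩
    · rintro ⟨h3, h4⟩
      rw [h1 _ h3.1, h1 _ h3.2]
      exact ⟨h3, h4⟩
  have hB0 : volume B = 0 := by
    refine hDf.measure_zero_of_invariant B (fun l => ?_) ?_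
    · ext t
      rw [mem_vadd_set_iff_neg_vadd_mem]
      have h1 := hBΛ (-(l : Cm q)) (Λ.neg_mem (hL _ l.2)) t
      exact h1
    · have h1 : volume.restrict D {t | ¬ (t ∈ R → t + w ∈ R → mx G (t + w) = mx G t)} = 0 := hall
      rw [Measure.restrict_apply₀' (ZSpan.fundamentalDomain_measurableSet b).nullMeasurableSet] at h1
      have h3 : B ∩ D ⊆ {t | ¬ (t ∈ R → t + w ∈ R → mx G (t + w) = mx G t)} ∩ D := by
        rintro t ⟨ht, htD⟩
        exact ⟨fun h2 => ht.2 (sub_eq_zero.2 (h2 ht.1.1 ht.1.2)), htD⟩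
      exact measure_mono_null h3 h1
  have hBe : B = ∅ := by
    by_contra hne
    exact (hBo.measure_pos volume (nonempty_iff_ne_empty.2 hne)).ne' hB0
  intro t ht ht'
  by_contra hne
  have : t ∈ B := ⟨⟨ht, ht'⟩, sub_ne_zero.2 hne⟩
  rw [hBe] at this
  exact this

end

section
variable {q : ℕ} {W : Type} [NormedAddCommGroup W] [InnerProductSpace ℂ W]
  {R : Set (Cm q)} {G : Cm q → (Cm q → W) → Prop}

/-- an open set covered by finitely many closed sets contains an open subset of one of them -/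
theorem open_cover {ι : Type} (s : Finset ι) {C : ι → Set (Cm q)} (hC : ∀ i, IsClosed (C i))
    {O : Set (Cm q)} (hO : IsOpen O) (hne : O.Nonempty) (hcov : ∀ x ∈ O, ∃ i ∈ s, x ∈ C i) :
    ∃ i, ∃ O' : Set (Cm q), IsOpen O' ∧ O'.Nonempty ∧ O' ⊆ O ∩ C i := by
  classical
  induction s using Finset.induction_on generalizing O with
  | empty =>
    obtain ⟨x, hx⟩ := hne
    obtain ⟨i, hi, -⟩ := hcov x hx
    exact absurd hi (Finset.notMem_empty i)
  | insert i s _ ih =>
    by_cases h1 : (O \ C i).Nonempty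
    · obtain ⟨j, O', h2, h3, h4⟩ := ih (O := O \ C i) (hO.sdiff (hC i)) h1 (fun x hx => by
        obtain ⟨k, hk, hxk⟩ := hcov x hx.1
        rcases Finset.mem_insert.1 hk with rfl | hk
        · exact absurd hxk hx.2
        · exact ⟨k, hk, hxk⟩)
      exact ⟨j, O', h2, h3, fun x hx => ⟨(h4 hx).1.1, (h4 hx).2⟩⟩
    · rw [not_nonempty_iff_eq_empty, sdiff_eq_empty] at h1
      exact ⟨i, O, hO, hne, fun x hx => ⟨hx, h1 hx⟩⟩

theorem MV.nul_of (h : MV R G)
    (hcon : ∀ v, ∀ t ∈ R, ∀ g, G t g → (∀ᶠ x in 𝓝 t, fderiv ℂ g x v = 0) → Nul R G v)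
    {a : Cm q} (ha : a ∈ lin (S₁ h)) (ha' : Complex.I • a ∈ lin (S₁ h)) : Nul R G a := by
  obtain ⟨t₀, ht₀⟩ := h.nonempty
  obtain ⟨r, hr, hrR, m, f, hm, hfa, hf⟩ := h.loc t₀ ht₀
  -- local invariance
  have hinv : ∀ x ∈ ball t₀ r, ∀ z : ℂ, x + z • a ∈ ball t₀ r → mx G (x + z • a) = mx G x := by
    intro x hx z hz
    have h1 : z.im • (Complex.I • a) + z.re • a ∈ S₁ h :=
      (S₁ h).add_mem (mem_lin.1 ha' _) (mem_lin.1 ha _)
    have h2 : x + z • a = x + (z.im • (Complex.I • a) + z.re • a) := by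
      rw [split_z, add_assoc]
    rw [h2]
    rw [h2] at hz
    exact mem_S₁.1 h1 x (hrR hx) (hrR hz)
  -- a germ which realises the maximum
  let C : Fin m → Set (Cm q) := fun i => closure {x | x ∈ ball t₀ r ∧ ‖f i x‖ = mx G x}
  have hCb : ∀ i, ∀ x ∈ C i, x ∈ ball t₀ r → ‖f i x‖ = mx G x := by
    intro i x hx hxb
    by_contra hne
    have h1 : ContinuousAt (fun x => ‖f i x‖ - mx G x) x :=
      (hfa i x hxb).continuousAt.norm.sub (h.mx_cont.continuousAt (h.opn.mem_nhds (hrR hxb)))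
    have h2 := h1.eventually_ne (sub_ne_zero.2 hne)
    obtain ⟨y, hy1, hy2⟩ := mem_closure_iff_nhds.1 hx _ h2
    exact hy1 (sub_eq_zero.2 hy2.2)
  obtain ⟨i, O, hO, ⟨x₀, hx₀⟩, hOC⟩ := open_cover Finset.univ (C := C) (fun i => isClosed_closure)
    (isOpen_ball (x := t₀) (ε := r)) ⟨t₀, mem_ball_self hr⟩ (fun x hx => by
      obtain ⟨i, hi⟩ := h.exists_mx' hm hf hx
      exact ⟨i, Finset.mem_univ i, subset_closure ⟨hx, hi⟩⟩)
  have hx₀b := (hOC hx₀).1
  refine hcon a x₀ (hrR hx₀b) (f i) ((hf x₀ hx₀b _).2 ⟨i, EventuallyEq.rfl⟩) ?_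
  filter_upwards [hO.mem_nhds hx₀] with x hx
  have hxb := (hOC hx).1
  have hbz : ∀ᶠ z : ℂ in 𝓝 0, x + z • a ∈ ball t₀ r := by
    have : Tendsto (fun z : ℂ => x + z • a) (𝓝 0) (𝓝 x) := by
      have h3 : Continuous fun z : ℂ => x + z • a := by fun_prop
      simpa using h3.tendsto 0
    exact this.eventually (isOpen_ball.mem_nhds hxb)
  have hlm : IsLocalMax (norm ∘ fun z : ℂ => f i (x + z • a)) 0 := by
    filter_upwards [hbz] with z hz
    show ‖f i (x + z • a)‖ ≤ ‖f i (x + (0 : ℂ) • a)‖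
    rw [zero_smul, add_zero, hCb i x (hOC hx).2 hxb, ← hinv x hxb z hz]
    exact h.le_mx' hf hz i
  have hd : ∀ᶠ z : ℂ in 𝓝 0, DifferentiableAt ℂ (fun z : ℂ => f i (x + z • a)) z := by
    filter_upwards [hbz] with z hz
    exact ((hfa i _ hz).differentiableAt).comp z (f := fun z : ℂ => x + z • a) (by fun_prop)
  letI : InnerProductSpace ℝ W := InnerProductSpace.rclikeToReal ℂ W
  have : UniformConvexSpace W := inferInstance
  have hev := Complex.eventually_eq_of_isLocalMax_norm hd hlm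
  -- derivative
  have h1 : HasDerivAt (fun z : ℂ => f i (x + z • a)) (fderiv ℂ (f i) x a) 0 := by
    have h2 : HasDerivAt (fun z : ℂ => x + z • a) a 0 := by
      simpa using ((hasDerivAt_id (0 : ℂ)).smul_const a).const_add x
    have h3 : HasFDerivAt (f i) (fderiv ℂ (f i) x) (x + (0 : ℂ) • a) := by
      rw [zero_smul, add_zero]
      exact (hfa i x hxb).differentiableAt.hasFDerivAt
    exact h3.comp_hasDerivAt (0 : ℂ) h2
  have h4 : HasDerivAt (fun z : ℂ => f i (x + z • a)) 0 0 :=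
    (hasDerivAt_const (0 : ℂ) (f i (x + (0 : ℂ) • a))).congr_of_eventuallyEq hev
  exact h1.unique h4

/-- **the main lemma**: only the null directions lie in `lin S₁` -/
theorem MV.lin_nul (h : MV R G) {Λ : AddSubgroup (Cm q)} (hΛR : ∀ l ∈ Λ, ∀ t ∈ R, t + l ∈ R)
    (hΛS : Λ ≤ S₁ h) (hspan : Submodule.span ℝ (Λ : Set (Cm q)) = ⊤)
    (hint : ∃ s : Cm q → ℝ≥0∞, (∀ ρ : ℝ, ∫⁻ t in ball (0 : Cm q) ρ, s t < ⊤) ∧
      ∀ t ∈ R, ∀ g, G t g → ENNReal.ofReal (‖g t‖ ^ 2) ≤ s t)
    (hcon : ∀ v, ∀ t ∈ R, ∀ g, G t g → (∀ᶠ x in 𝓝 t, fderiv ℂ g x v = 0) → Nul R G v)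
    {a : Cm q} (ha : a ∈ lin (S₁ h)) : Nul R G a := by
  refine h.nul_of hcon ha (mem_lin.2 fun s => ?_)
  rcases lt_trichotomy s 0 with hs | rfl | hs
  · have := h.I_mem hΛR hΛS hspan hint ha (s := -s) (by linarith)
    rw [neg_smul] at this
    simpa using (S₁ h).neg_mem this
  · rw [zero_smul]
    exact (S₁ h).zero_mem
  · exact h.I_mem hΛR hΛS hspan hint ha hs

end

end Vale.Agent.P284.H136.Rat
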